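import Mathlib
import Crest.Prelude.Def_SetDegree

/-!
# R292 (S0441): basic definitions

Reals are `Om = ℕ → Bool`, thought of as `F_2[[t]]`.  Turing functionals are given by
enumeration operators: `Red c b a` says that the graph of `a` is enumerated from the graph of `b`
by the recursively enumerable set with code `c`.
-/

set_option autoImplicit false

namespace Crest.Agent.R292

open Encodable
open Nat.Partrec (Code)
open Crest.LogicCS.Degrees

/-- Reals. -/
abbrev Om : Type := ℕ → Bool

/-- characteristic (total) function of a real, as an oracle. -/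
def chi (a : Om) : ℕ →. ℕ := fun n => Part.some (a n).toNat

/-- `TR a b`: the real `a` is Turing reducible to the real `b`. -/
def TR (a b : Om) : Prop := TuringReducible (chi a) (chi b)

/-- finite sets of facts about a real. -/
abbrev Facts : Type := List (ℕ × Bool)

/-- all facts of `D` are true of `b`. -/
def Tr (b : Om) (D : Facts) : Prop := ∀ f ∈ D, b f.1 = f.2

/-- `(D, n, v)` lies in the r.e. set with code `c`. -/
def Hit (c : Code) (D : Facts) (n : ℕ) (v : Bool) : Prop := (c.eval (encode (D, n, v))).Dom

/-- `Red c b a`: the functional with code `c` maps the real `b` to the real `a`. -/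
def Red (c : Code) (b a : Om) : Prop := ∀ n v, a n = v ↔ ∃ D, Tr b D ∧ Hit c D n v

/-- Uniform reduction of families: one functional maps `b i` to `a i` for all `i`. -/
def UR {I : Type*} (b a : I → Om) : Prop := ∃ c, ∀ i, Red c (b i) (a i)

/-- join of two reals: even bits from `a`, odd bits from `b`. -/
def join (a b : Om) : Om := fun n => if n % 2 = 0 then a (n / 2) else b (n / 2)

/-- constant real -/
def cst (x : Bool) : Om := fun _ => x

/-- `i`-th column of a real. -/
def col (A : Om) (i : ℕ) : Om := fun n => A (Nat.pair i n)

/-- delete the `i`-th column. -/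
def del (A : Om) (i : ℕ) : Om := fun m => if (Nat.unpair m).1 = i then false else A m

/-- flatten a sequence of reals into one real. -/
def flat (w : ℕ → Om) : Om := fun m => w (Nat.unpair m).1 (Nat.unpair m).2

/-- keep the columns with index in `Y`. -/
def keep (Y A : Om) : Om := fun m => Y (Nat.unpair m).1 && A m

/-- finite join of the reals `B 0, …, B (N-1)`. -/
def jn : ℕ → (ℕ → Om) → Om
  | 0, _ => cst false
  | N + 1, B => join (jn N B) (B N)

/-- pointwise xor -/
def add (a b : Om) : Om := fun n => xor (a n) (b n)

/-- scalar multiple by a bit -/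
def sc (x : Bool) (a : Om) : Om := fun n => x && a n

/-- right shift (multiplication by `t`) -/
def sh (a : Om) : Om
  | 0 => false
  | n + 1 => a n

/-- left shift -/
def ls (a : Om) : Om := fun n => a (n + 1)

/-- `m`-fold right shift -/
def shn (m : ℕ) (a : Om) : Om := fun n => if n < m then false else a (n - m)

/-- convolution product in `F_2[[t]]`. -/
def cv : Om → Om → Om
  | x, a, 0 => x 0 && a 0
  | x, a, n + 1 => xor (x 0 && a (n + 1)) (cv (ls x) a n)

/-- truncation: first `m` bits, then zeros -/
def tn (m : ℕ) (a : Om) : Om := fun n => if n < m then a n else false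

/-- the total version of the functional with code `c` -/
noncomputable def Ft (c : Code) (b : Om) : Om := by
  classical exact fun n => decide (∃ D, Tr b D ∧ Hit c D n true)

/-- the degree of a real -/
noncomputable def dg (a : Om) : SetDegree := ⟨degOf {n | a n = true}, ⟨_, rfl⟩⟩

/-- the seven uniform relations at the point `(T, W)` -/
def Rel (X Xh : Om) (f g s1 st sX : Om → Om) (c : Fin 7 → Code) (p : Om × Om) : Prop :=
  Red (c 0) (join (f p.1) (g p.2)) (s1 (add p.1 p.2)) ∧
  Red (c 1) (join (s1 (add p.1 p.2)) (f p.1)) (g p.2) ∧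
  Red (c 2) (join (s1 (add p.1 p.2)) (g p.2)) (f p.1) ∧
  Red (c 3) (join (f p.1) (g p.2)) (st (add (sh p.1) p.2)) ∧
  Red (c 4) (join (st (add (sh p.1) p.2)) (g p.2)) (f p.1) ∧
  Red (c 5) (join Xh (join (f p.1) (g p.2))) (sX (add (cv X p.1) p.2)) ∧
  Red (c 6) (join Xh (join (sX (add (cv X p.1) p.2)) (f p.1))) (g p.2)

/-! trivial facts -/

@[simp] theorem join_even (a b : Om) (n : ℕ) : join a b (2 * n) = a n := by
  simp [join]

@[simp] theorem join_odd (a b : Om) (n : ℕ) : join a b (2 * n + 1) = b n := by
  have h2 : (2 * n + 1) / 2 = n := by omega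
  simp [join, h2]


@[simp] theorem flat_pair (w : ℕ → Om) (i n : ℕ) : flat w (Nat.pair i n) = w i n := by
  simp [flat]

@[simp] theorem col_flat (w : ℕ → Om) (i : ℕ) : col (flat w) i = w i := by
  funext n; simp [col]


theorem Red.Ft_eq {c : Code} {b a : Om} (h : Red c b a) : Ft c b = a := by
  funext n
  unfold Ft
  have := h n true
  by_cases ha : a n = true
  · simp [ha, this.1 ha]
  · have h2 : ¬ ∃ D, Tr b D ∧ Hit c D n true := fun hh => ha (this.2 hh)
    simp only [Bool.not_eq_true] at ha
    rw [ha]; simpa using h2

theorem Tr.append {b : Om} {D E : Facts} (hD : Tr b D) (hE : Tr b E) : Tr b (D ++ E) := by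
  intro f hf
  rcases List.mem_append.1 hf with h | h
  · exact hD f h
  · exact hE f h

theorem Tr.mono {b : Om} {D E : Facts} (hE : Tr b E) (h : ∀ f ∈ D, f ∈ E) : Tr b D :=
  fun f hf => hE f (h f hf)

theorem Tr.nil (b : Om) : Tr b [] := by intro f hf; simp at hf

theorem add_comm (a b : Om) : add a b = add b a := by
  funext n; simp [add, Bool.xor_comm]

theorem add_assoc (a b c : Om) : add (add a b) c = add a (add b c) := by
  funext n; simp [add]

theorem add_self (a : Om) : add a a = cst false := by
  funext n; simp [add, cst]

theorem add_zero (a : Om) : add a (cst false) = a := by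
  funext n; simp [add, cst]

theorem zero_add (a : Om) : add (cst false) a = a := by
  funext n; simp [add, cst]

theorem add_add_cancel (a b : Om) : add a (add a b) = b := by
  rw [← add_assoc, add_self, zero_add]

theorem cv_eq (x a : Om) : cv x a = add (sc (x 0) a) (sh (cv (ls x) a)) := by
  funext n
  cases n with
  | zero => simp [cv, add, sc, sh]
  | succ n => simp [cv, add, sc, sh]

end Crest.Agent.R292
private theorem rz_d0aa6acbba : type_of% @_root_.Crest.Agent.R292.cv.eq_def := @_root_.Crest.Agent.R292.cv.eq_def -- L85
private theorem rz_ca822475d0 : type_of% @_root_.Crest.Agent.R292.cv.eq_1 := @_root_.Crest.Agent.R292.cv.eq_1 -- L85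
private theorem rz_1f4bbf7177 : type_of% @_root_.Crest.Agent.R292.sh.eq_1 := @_root_.Crest.Agent.R292.sh.eq_1 -- L74
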