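import Crest.Agent.R292.RE
import Crest.Agent.R292.NormalForm
import Crest.Agent.R292.Defs

-- ▼ part R292/Oracle
section

/-!
# R292: `TR a b` iff some enumeration functional `Red c b a`
-/

set_option autoImplicit false

namespace Crest.Agent.R292

open Encodable
open Nat.Partrec (Code)

/-- the graph of the partial function `g` is enumerated from (the graph of) `b`. -/
def EO (b : Om) (g : ℕ →. ℕ) : Prop :=
  ∃ W : Facts → ℕ → ℕ → Prop, REPred (fun x : Facts × ℕ × ℕ => W x.1 x.2.1 x.2.2) ∧
    ∀ n v, v ∈ g n ↔ ∃ D, Tr b D ∧ W D n v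

/-- the facts stated by a prefix -/
def factsOf (σ : List Bool) : Facts := (List.range σ.length).map (fun i => (i, (σ[i]?).getD false))

lemma mem_factsOf {σ : List Bool} {f : ℕ × Bool} :
    f ∈ factsOf σ ↔ σ[f.1]? = some f.2 := by
  unfold factsOf
  rw [List.mem_map]
  constructor
  · rintro ⟨i, hi, rfl⟩
    rw [List.mem_range] at hi
    simp [List.getElem?_eq_getElem hi]
  · intro h
    have hi : f.1 < σ.length := by
      by_contra hh
      rw [List.getElem?_eq_none (by omega)] at h
      exact absurd h (by simp)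
    exact ⟨f.1, List.mem_range.2 hi, by rw [h]; rfl⟩

lemma primrec_factsOf : Primrec factsOf := by
  unfold factsOf
  apply Primrec.list_map (f := fun σ : List Bool => List.range σ.length)
    (g := fun (σ : List Bool) (i : ℕ) => (i, (σ[i]?).getD false))
  · exact Primrec.list_range.comp Primrec.list_length
  · apply Primrec₂.mk
    apply Primrec.pair Primrec.snd
    exact Primrec.option_getD.comp (Primrec.list_getElem?.comp Primrec.fst Primrec.snd)
      (Primrec.const false)

lemma Tr_factsOf_iff {b : Om} {σ : List Bool} : Tr b (factsOf σ) ↔ σ = pre b σ.length := by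
  constructor
  · intro h
    apply List.ext_getElem?
    intro i
    rw [getElem?_pre]
    split_ifs with hi
    · have h1 : (i, σ[i]) ∈ factsOf σ := by
        rw [mem_factsOf]
        exact List.getElem?_eq_getElem hi
      have h2 := h _ h1
      simp only at h2
      rw [List.getElem?_eq_getElem hi, h2]
    · exact List.getElem?_eq_none (by omega)
  · intro h f hf
    rw [mem_factsOf, h, getElem?_pre] at hf
    split_ifs at hf with hi
    exact Option.some.inj hf

/-- the facts in `σ` are all contained in `D` -/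
lemma primrecPred_sub : PrimrecPred (fun x : Facts × List Bool => ∀ f ∈ factsOf x.2, f ∈ x.1) := by
  have h1 : PrimrecRel (fun (L : Facts) (x : Facts) => ∀ f ∈ L, f ∈ x) := by
    apply PrimrecRel.forall_mem_list (R := fun (f : ℕ × Bool) (x : Facts) => f ∈ x)
    have h2 : PrimrecRel (fun (x : Facts) (f : ℕ × Bool) => ∃ g ∈ x, g = f) :=
      PrimrecRel.exists_mem_list (R := fun (g f : ℕ × Bool) => g = f) Primrec.eq
    have h3 : PrimrecRel (fun (f : ℕ × Bool) (x : Facts) => ∃ g ∈ x, g = f) := h2.swap
    exact h3.of_eq (fun f x => by simp)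
  exact h1.comp (primrec_factsOf.comp Primrec.snd) Primrec.fst

/-- Every partial function recursive in `b` is enumerated from `b`. -/
theorem EO_of_recursiveIn {b : Om} {g : ℕ →. ℕ} (h : Nat.RecursiveIn {chi b} g) : EO b g := by
  obtain ⟨φ, hφ⟩ := exists_approx b h
  refine ⟨fun D n v => ∃ σ : List Bool, (∀ f ∈ factsOf σ, f ∈ D) ∧ φ σ n = some v, ?_, ?_⟩
  · have h1 : PrimrecPred (fun y : (Facts × ℕ × ℕ) × List Bool =>
        (∀ f ∈ factsOf y.2, f ∈ y.1.1) ∧ φ y.2 y.1.2.1 = some y.1.2.2) := by
      apply PrimrecPred.and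
      · exact primrecPred_sub.comp ((Primrec.fst.comp Primrec.fst).pair Primrec.snd)
      · apply PrimrecRel.comp Primrec.eq
        · exact hφ.prim.comp Primrec.snd (Primrec.fst.comp (Primrec.snd.comp Primrec.fst))
        · exact Primrec.option_some.comp (Primrec.snd.comp (Primrec.snd.comp Primrec.fst))
    have h2 : REPred (fun y : (Facts × ℕ × ℕ) × List Bool =>
        (∀ f ∈ factsOf y.2, f ∈ y.1.1) ∧ φ y.2 y.1.2.1 = some y.1.2.2) := by
      obtain ⟨_, hd⟩ := h1
      exact (ComputablePred.of_eq ⟨_, hd.to_comp⟩ (fun _ => Iff.rfl)).to_re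
    exact re_ex h2
  · intro n v
    rw [hφ.spec]
    constructor
    · rintro ⟨k, hk⟩
      refine ⟨factsOf (pre b k), Tr_factsOf_iff.2 (by simp), pre b k, fun f hf => hf, hk⟩
    · rintro ⟨D, hD, σ, hσ, hk⟩
      have : Tr b (factsOf σ) := fun f hf => hD f (hσ f hf)
      rw [Tr_factsOf_iff] at this
      exact ⟨σ.length, by rw [← this]; exact hk⟩

theorem Red_of_TR {a b : Om} (h : TR a b) : ∃ c, Red c b a := by
  have h1 : Nat.RecursiveIn {chi b} (chi a) := RecursiveIn.iff_nat.1 h
  obtain ⟨W, hW, hs⟩ := EO_of_recursiveIn h1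
  have h2 : REPred (fun x : Facts × ℕ × Bool => W x.1 x.2.1 x.2.2.toNat) := by
    have := re_comp (α := Facts × ℕ × Bool) hW
      (f := fun x : Facts × ℕ × Bool => (x.1, x.2.1, x.2.2.toNat)) (by
        apply Primrec.to_comp
        exact Primrec.fst.pair ((Primrec.fst.comp Primrec.snd).pair
          ((Primrec.dom_bool Bool.toNat).comp (Primrec.snd.comp Primrec.snd))))
    exact this
  obtain ⟨c, hc⟩ := hit_code (p := fun D n v => W D n v.toNat) h2
  refine ⟨c, fun n v => ?_⟩
  have h3 := hs n v.toNat
  constructor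
  · intro hv
    have : v.toNat ∈ chi a n := by
      show v.toNat ∈ Part.some (a n).toNat
      rw [hv]; exact Part.mem_some _
    obtain ⟨D, hD, hw⟩ := h3.1 this
    exact ⟨D, hD, (hc D n v).2 hw⟩
  · rintro ⟨D, hD, hw⟩
    have : v.toNat ∈ chi a n := h3.2 ⟨D, hD, (hc D n v).1 hw⟩
    have h4 : v.toNat = (a n).toNat := by
      have h5 : v.toNat ∈ Part.some (a n).toNat := this
      simpa using h5
    revert h4
    cases v <;> cases (a n) <;> simp

/-! ## From a computable search to `Nat.RecursiveIn` -/

/-- total functions recursive in a set of oracles -/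
def TIn (O : Set (ℕ →. ℕ)) (u : ℕ → ℕ) : Prop := Nat.RecursiveIn O (fun n => Part.some (u n))

lemma TIn.of_computable {O : Set (ℕ →. ℕ)} {u : ℕ → ℕ} (hu : Computable u) : TIn O u := by
  have : Nat.Partrec (fun n => Part.some (u n)) := Partrec.nat_iff.1 hu
  exact this.recursiveIn

lemma TIn.comp {O : Set (ℕ →. ℕ)} {u w : ℕ → ℕ} (hu : TIn O u) (hw : TIn O w) :
    TIn O (fun n => u (w n)) := by
  refine (Nat.RecursiveIn.comp hu hw).of_eq ?_
  intro n
  exact Part.bind_some _ _

lemma TIn.pair {O : Set (ℕ →. ℕ)} {u w : ℕ → ℕ} (hu : TIn O u) (hw : TIn O w) :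
    TIn O (fun n => Nat.pair (u n) (w n)) := by
  refine (Nat.RecursiveIn.pair hu hw).of_eq ?_
  intro n
  show (Nat.pair <$> Part.some (u n) <*> Part.some (w n)) = _
  simp [Seq.seq]

lemma TIn.prec {O : Set (ℕ →. ℕ)} {u w : ℕ → ℕ} (hu : TIn O u) (hw : TIn O w) :
    TIn O (fun p => Nat.rec (u p.unpair.1)
      (fun y IH => w (Nat.pair p.unpair.1 (Nat.pair y IH))) p.unpair.2) := by
  refine (Nat.RecursiveIn.prec hu hw).of_eq ?_
  intro p
  show (Nat.rec (Part.some (u p.unpair.1)) (fun y IH => do
          let i ← IH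
          Part.some (w (Nat.pair p.unpair.1 (Nat.pair y i)))) p.unpair.2 : Part ℕ) =
    Part.some (Nat.rec (u p.unpair.1)
      (fun y IH => w (Nat.pair p.unpair.1 (Nat.pair y IH))) p.unpair.2)
  generalize p.unpair.1 = a
  generalize p.unpair.2 = n
  induction n with
  | zero => rfl
  | succ n ih =>
    simp only
    rw [ih]
    exact Part.bind_some _ _

/-- the codes of the prefixes of `b` are computable from `b` -/
lemma TIn_pre (b : Om) : TIn {chi b} (fun k => encode (pre b k)) := by
  -- step function: from `⟨a, ⟨y, i⟩⟩` with `i = encode (pre b y)` to `encode (pre b (y+1))`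
  have ho : TIn {chi b} (fun n => (b n).toNat) := Nat.RecursiveIn.oracle _ rfl
  have hc : Computable (fun q : ℕ => encode (((decode (α := List Bool) q.unpair.1).getD []) ++
      [decide (q.unpair.2 = 1)])) := by
    apply Primrec.to_comp
    apply Primrec.encode.comp
    apply Primrec.list_append.comp
    · apply Primrec.option_getD.comp
      · exact Primrec.decode.comp (Primrec.fst.comp Primrec.unpair)
      · exact Primrec.const _
    · apply Primrec.list_cons.comp
      · exact (PrimrecRel.comp Primrec.eq (Primrec.snd.comp Primrec.unpair)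
          (Primrec.const 1)).decide
      · exact Primrec.const _
  have hy : Computable (fun q : ℕ => q.unpair.2.unpair.1) :=
    (Primrec.fst.comp (Primrec.unpair.comp (Primrec.snd.comp Primrec.unpair))).to_comp
  have hi : Computable (fun q : ℕ => q.unpair.2.unpair.2) :=
    (Primrec.snd.comp (Primrec.unpair.comp (Primrec.snd.comp Primrec.unpair))).to_comp
  have hstep : TIn {chi b} (fun q : ℕ => encode (((decode (α := List Bool)
      q.unpair.2.unpair.2).getD []) ++ [decide ((b q.unpair.2.unpair.1).toNat = 1)])) := by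
    have h1 := (TIn.of_computable (O := {chi b}) hi).pair
      (ho.comp (TIn.of_computable (O := {chi b}) hy))
    have h2 := (TIn.of_computable (O := {chi b}) hc).comp h1
    simpa using h2
  have hzero : TIn {chi b} (fun _ : ℕ => encode ([] : List Bool)) :=
    TIn.of_computable (Computable.const _)
  have h3 := hzero.prec hstep
  have hk : TIn {chi b} (fun k => Nat.pair 0 k) :=
    TIn.of_computable (Primrec₂.natPair.comp (Primrec.const 0) Primrec.id).to_comp
  have h4 := h3.comp hk
  unfold TIn at h4 ⊢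
  refine h4.of_eq ?_
  intro k
  congr 1
  simp only [Nat.unpair_pair]
  induction k with
  | zero => rfl
  | succ k ih =>
    simp only
    rw [ih, encodek, pre_succ]
    simp only [Option.getD_some]
    cases b k <;> rfl

/-- A computable search along the prefixes of `b` gives a Turing reduction. -/
theorem TR_of_search {a b : Om} (q : List Bool → ℕ → Option Bool) (hq : Computable₂ q)
    (hs : ∀ k n v, q (pre b k) n = some v → a n = v) (hc : ∀ n, ∃ k, (q (pre b k) n).isSome) :
    TR a b := by
  have hQ : Computable (fun p : ℕ => encode (q ((decode (α := List Bool) p.unpair.2).getD [])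
      p.unpair.1)) := by
    apply Computable.encode.comp
    apply hq.comp
    · apply Primrec.to_comp
      exact Primrec.option_getD.comp (Primrec.decode.comp (Primrec.snd.comp Primrec.unpair))
        (Primrec.const _)
    · exact (Primrec.fst.comp Primrec.unpair).to_comp
  have hA : TIn {chi b} (fun p : ℕ => encode (q (pre b p.unpair.2) p.unpair.1)) := by
    have h1 := (TIn.of_computable (O := {chi b}) (Primrec.fst.comp Primrec.unpair).to_comp).pair
      ((TIn_pre b).comp (TIn.of_computable (O := {chi b})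
        (Primrec.snd.comp Primrec.unpair).to_comp))
    have h2 := (TIn.of_computable (O := {chi b}) hQ).comp h1
    simpa using h2
  -- test function: `0` iff the search has succeeded
  have hT : TIn {chi b} (fun p : ℕ => if (q (pre b p.unpair.2) p.unpair.1).isSome then 0 else 1) := by
    have hc1 : Computable (fun m : ℕ => if m = 0 then 1 else 0) := by
      apply Primrec.to_comp
      exact Primrec.ite (PrimrecRel.comp Primrec.eq Primrec.id (Primrec.const 0))
        (Primrec.const 1) (Primrec.const 0)
    have h1 := (TIn.of_computable (O := {chi b}) hc1).comp hA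
    unfold TIn at h1 ⊢
    refine h1.of_eq ?_
    intro p
    show Part.some (if encode (q (pre b p.unpair.2) p.unpair.1) = 0 then 1 else 0) =
      Part.some (if (q (pre b p.unpair.2) p.unpair.1).isSome then 0 else 1)
    generalize q (pre b p.unpair.2) p.unpair.1 = o
    cases o <;> simp
  have hF : Nat.RecursiveIn {chi b} (fun n => Nat.rfind fun k => (fun m => decide (m = 0)) <$>
      (fun p : ℕ => Part.some (if (q (pre b p.unpair.2) p.unpair.1).isSome then 0 else 1) :
        ℕ → Part ℕ) (Nat.pair n k)) := Nat.RecursiveIn.rfind hT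
  -- the value
  have hP : Nat.RecursiveIn {chi b} (fun n => (Nat.pair <$> (Part.some n) <*>
      (Nat.rfind fun k => (fun m => decide (m = 0)) <$>
      (fun p : ℕ => Part.some (if (q (pre b p.unpair.2) p.unpair.1).isSome then 0 else 1) :
        ℕ → Part ℕ) (Nat.pair n k)))) :=
    Nat.RecursiveIn.pair (TIn.of_computable Computable.id) hF
  have hV : TIn {chi b} (fun p : ℕ => ((q (pre b p.unpair.2) p.unpair.1).getD false).toNat) := by
    have hc1 : Computable (fun m : ℕ => (((decode (α := Option Bool) m).getD none).getD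
        false).toNat) := by
      apply Primrec.to_comp
      apply (Primrec.dom_bool Bool.toNat).comp
      apply Primrec.option_getD.comp
      · exact Primrec.option_getD.comp Primrec.decode (Primrec.const none)
      · exact Primrec.const false
    have h1 := (TIn.of_computable (O := {chi b}) hc1).comp hA
    simpa using h1
  have hfin := Nat.RecursiveIn.comp hV hP
  show RecursiveIn {chi b} (chi a)
  rw [RecursiveIn.iff_nat]
  refine hfin.of_eq ?_
  intro n
  have hn := hc n
  classical
  set k := Nat.find hn with hk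
  have hk1 : (q (pre b k) n).isSome := Nat.find_spec hn
  have hr : k ∈ (Nat.rfind fun k => (fun m => decide (m = 0)) <$>
      (fun p : ℕ => Part.some (if (q (pre b p.unpair.2) p.unpair.1).isSome then 0 else 1) :
        ℕ → Part ℕ) (Nat.pair n k)) := by
    refine Nat.mem_rfind.2 ⟨?_, ?_⟩
    · simp [hk1]
    · intro m hm
      have := Nat.find_min hn hm
      simp [this]
  rw [Part.eq_some_iff.2 hr]
  have e1 : (Nat.pair <$> (Part.some n) <*> Part.some k) = Part.some (Nat.pair n k) := by
    simp [Seq.seq]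
  rw [e1]
  show Part.bind (Part.some (Nat.pair n k)) _ = Part.some (a n).toNat
  rw [Part.bind_some]
  simp only [Nat.unpair_pair]
  obtain ⟨v, hv⟩ := Option.isSome_iff_exists.1 hk1
  rw [hv, hs k n v hv]
  rfl

/-- the facts of `D` are all visible in the string `σ` -/
def chk (σ : List Bool) (D : Facts) : Bool := decide (∀ f ∈ D, σ[f.1]? = some f.2)

lemma primrec_chk : Primrec₂ chk := by
  unfold chk
  have h1 : PrimrecRel (fun (L : Facts) (σ : List Bool) => ∀ f ∈ L, σ[f.1]? = some f.2) := by
    apply PrimrecRel.forall_mem_list (R := fun (f : ℕ × Bool) (σ : List Bool) =>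
      σ[f.1]? = some f.2)
    apply PrimrecRel.comp Primrec.eq
    · exact Primrec.list_getElem?.comp Primrec.snd (Primrec.fst.comp Primrec.fst)
    · exact Primrec.option_some.comp (Primrec.snd.comp Primrec.fst)
  have h2 : PrimrecRel (fun (σ : List Bool) (L : Facts) => ∀ f ∈ L, σ[f.1]? = some f.2) := h1.swap
  exact h2.decide

lemma chk_pre {b : Om} {k : ℕ} {D : Facts} :
    chk (pre b k) D = true ↔ Tr b D ∧ ∀ f ∈ D, f.1 < k := by
  unfold chk
  rw [decide_eq_true_iff]
  constructor
  · intro h
    refine ⟨fun f hf => ?_, fun f hf => ?_⟩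
    · have := h f hf
      rw [getElem?_pre] at this
      split_ifs at this
      exact Option.some.inj this
    · have := h f hf
      rw [getElem?_pre] at this
      split_ifs at this with h1
      exact h1
  · rintro ⟨h1, h2⟩ f hf
    rw [getElem?_pre_of_lt b (h2 f hf), h1 f hf]

/-- the search associated with a functional -/
def srch (c : Code) (σ : List Bool) (n : ℕ) : Option Bool :=
  ((List.range σ.length).filterMap (fun m =>
    (decode (α := Facts × Bool) m).bind fun x =>
      if chk σ x.1 = true ∧ (c.evaln σ.length (encode (x.1, n, x.2))).isSome = true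
      then some x.2 else none)).head?

lemma primrec_srch (c : Code) : Primrec₂ (srch c) := by
  unfold srch
  apply Primrec₂.mk
  apply Primrec.list_head?.comp
  apply Primrec.listFilterMap (f := fun p : List Bool × ℕ => List.range p.1.length)
    (g := fun (p : List Bool × ℕ) (m : ℕ) => (decode (α := Facts × Bool) m).bind fun x =>
      if chk p.1 x.1 = true ∧ (c.evaln p.1.length (encode (x.1, p.2, x.2))).isSome = true
      then some x.2 else none)
  · exact Primrec.list_range.comp (Primrec.list_length.comp Primrec.fst)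
  · apply Primrec.option_bind (f := fun r : (List Bool × ℕ) × ℕ => decode (α := Facts × Bool) r.2)
      (g := fun (r : (List Bool × ℕ) × ℕ) (x : Facts × Bool) =>
        if chk r.1.1 x.1 = true ∧ (c.evaln r.1.1.length (encode (x.1, r.1.2, x.2))).isSome = true
        then some x.2 else none)
    · exact Primrec.decode.comp Primrec.snd
    · apply Primrec₂.mk
      apply Primrec.ite
      · apply PrimrecPred.and
        · apply PrimrecRel.comp Primrec.eq
          · exact primrec_chk.comp (Primrec.fst.comp (Primrec.fst.comp Primrec.fst))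
              (Primrec.fst.comp Primrec.snd)
          · exact Primrec.const _
        · apply PrimrecRel.comp Primrec.eq
          · apply Primrec.option_isSome.comp
            have := Nat.Partrec.Code.primrec_evaln
            apply Primrec.comp (f := fun a : (ℕ × Code) × ℕ => Code.evaln a.1.1 a.1.2 a.2)
              (g := fun r : ((List Bool × ℕ) × ℕ) × (Facts × Bool) =>
                ((r.1.1.1.length, c), encode (r.2.1, r.1.1.2, r.2.2)))
            · exact this
            · apply Primrec.pair
              · exact (Primrec.list_length.comp (Primrec.fst.comp (Primrec.fst.comp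
                  Primrec.fst))).pair (Primrec.const c)
              · apply Primrec.encode.comp
                exact (Primrec.fst.comp Primrec.snd).pair
                  ((Primrec.snd.comp (Primrec.fst.comp Primrec.fst)).pair
                    (Primrec.snd.comp Primrec.snd))
          · exact Primrec.const _
      · exact Primrec.option_some.comp (Primrec.snd.comp Primrec.snd)
      · exact Primrec.const _

lemma evaln_dom {c : Code} {n : ℕ} : (c.eval n).Dom ↔ ∃ k, (c.evaln k n).isSome = true := by
  rw [Part.dom_iff_mem]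
  constructor
  · rintro ⟨y, hy⟩
    obtain ⟨k, hk⟩ := Nat.Partrec.Code.evaln_complete.1 hy
    exact ⟨k, by rw [Option.mem_def] at hk; rw [hk]; rfl⟩
  · rintro ⟨k, hk⟩
    obtain ⟨y, hy⟩ := Option.isSome_iff_exists.1 hk
    exact ⟨y, Nat.Partrec.Code.evaln_sound hy⟩

/-- search for `(D, v, k)`, with `D` checked against the oracle. -/
theorem TR_of_Red {a b : Om} {c : Code} (h : Red c b a) : TR a b := by
  apply TR_of_search (srch c) (primrec_srch c).to_comp
  · intro k n v hv
    unfold srch at hv
    have h1 := List.mem_of_head? hv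
    rw [List.mem_filterMap] at h1
    obtain ⟨m, _, hm⟩ := h1
    rw [Option.bind_eq_some_iff] at hm
    obtain ⟨x, _, hx⟩ := hm
    split_ifs at hx with h2
    obtain rfl : x.2 = v := Option.some.inj hx
    refine (h n x.2).2 ⟨x.1, (chk_pre.1 h2.1).1, ?_⟩
    exact evaln_dom.2 ⟨_, h2.2⟩
  · intro n
    obtain ⟨D, hD, hh⟩ := (h n (a n)).1 rfl
    obtain ⟨k, hk⟩ := evaln_dom.1 hh
    obtain ⟨B, hB⟩ : ∃ B, ∀ f ∈ D, f.1 < B := by
      refine ⟨(D.map Prod.fst).sum + 1, fun f hf => ?_⟩
      have := List.single_le_sum (l := D.map Prod.fst) (by simp) f.1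
        (List.mem_map.2 ⟨f, hf, rfl⟩)
      omega
    set K := max k (max B (encode (D, a n) + 1)) with hK
    have hKk : k ≤ K := le_max_left _ _
    have hKB : B ≤ K := le_trans (le_max_left _ _) (le_max_right _ _)
    have hKe : encode (D, a n) + 1 ≤ K := le_trans (le_max_right _ _) (le_max_right _ _)
    refine ⟨K, ?_⟩
    unfold srch
    rw [List.isSome_head?]
    apply List.ne_nil_of_mem (a := a n)
    rw [List.mem_filterMap]
    refine ⟨encode (D, a n), ?_, ?_⟩
    · rw [List.mem_range, length_pre]
      exact hKe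
    · rw [encodek]
      show (if chk (pre b K) D = true ∧
        (c.evaln (pre b K).length (encode (D, n, a n))).isSome = true then some (a n) else none) = _
      rw [if_pos]
      refine ⟨chk_pre.2 ⟨hD, fun f hf => lt_of_lt_of_le (hB f hf) hKB⟩, ?_⟩
      rw [length_pre]
      obtain ⟨y, hy⟩ := Option.isSome_iff_exists.1 hk
      have := Nat.Partrec.Code.evaln_mono hKk hy
      rw [Option.mem_def] at this
      rw [this]; rfl

theorem TR_iff_Red {a b : Om} : TR a b ↔ ∃ c, Red c b a :=
  ⟨Red_of_TR, fun ⟨_, h⟩ => TR_of_Red h⟩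

theorem TR.refl (a : Om) : TR a a := TuringReducible.refl _

theorem TR.trans {a b c : Om} (h : TR a b) (h' : TR b c) : TR a c :=
  TuringReducible.trans h h'

end Crest.Agent.R292
end

-- ▼ part R292/Uniform
section

/-!
# R292: uniform reductions of families, and the iteration lemma

Everything here is about `Red`, i.e. about r.e. sets of triples `(D, n, v)`.  Only `RE.lean`
is needed (`TR` is not mentioned).  Use `hit_code` with the appropriate r.e. predicate.
-/

set_option autoImplicit false

namespace Crest.Agent.R292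

open Encodable
open Nat.Partrec (Code)

variable {I : Type*}

/-! ## primitive recursive helpers -/

theorem pr_mem {α : Type*} [Primcodable α] : PrimrecRel (fun (a : α) (L : List α) => a ∈ L) := by
  have h : PrimrecRel (fun (L : List α) (b : α) => ∃ a ∈ L, a = b) :=
    PrimrecRel.exists_mem_list (Primrec.eq (α := α))
  exact (h.swap).of_eq (by intro a b; simp [Function.swap])

theorem pr_sub {α : Type*} [Primcodable α] :
    PrimrecRel (fun (L L' : List α) => ∀ a ∈ L, a ∈ L') :=
  PrimrecRel.forall_mem_list pr_mem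

theorem re_of_prim {α : Type*} [Primcodable α] {p : α → Prop} (h : PrimrecPred p) : REPred p :=
  h.computablePred.to_re

/-- monotone closure of the r.e. set -/
def HM (c : Code) (D : Facts) (n : ℕ) (v : Bool) : Prop :=
  ∃ D' : Facts, (∀ y ∈ D', y ∈ D) ∧ Hit c D' n v

theorem HM.mono {c : Code} {D E : Facts} {n : ℕ} {v : Bool} (h : HM c D n v)
    (hs : ∀ y ∈ D, y ∈ E) : HM c E n v := by
  obtain ⟨D', h1, h2⟩ := h
  exact ⟨D', fun y hy => hs y (h1 y hy), h2⟩

theorem Hit.hm {c : Code} {D : Facts} {n : ℕ} {v : Bool} (h : Hit c D n v) : HM c D n v :=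
  ⟨D, fun _ hy => hy, h⟩

theorem re_HM : REPred (fun x : Code × Facts × ℕ × Bool => HM x.1 x.2.1 x.2.2.1 x.2.2.2) := by
  unfold HM
  refine re_ex (p := fun z : (Code × Facts × ℕ × Bool) × Facts =>
    (∀ y ∈ z.2, y ∈ z.1.2.1) ∧ Hit z.1.1 z.2 z.1.2.2.1 z.1.2.2.2) ?_
  refine re_and ?_ ?_
  · refine re_of_prim ?_
    exact pr_sub.comp Primrec.snd (Primrec.fst.comp (Primrec.snd.comp Primrec.fst))
  · refine re_comp re_hit (f := fun z : (Code × Facts × ℕ × Bool) × Facts =>
      (z.1.1, z.2, z.1.2.2.1, z.1.2.2.2)) ?_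
    refine Primrec.to_comp ?_
    have h1 : Primrec (fun z : (Code × Facts × ℕ × Bool) × Facts => z.1) := Primrec.fst
    have h2 : Primrec (fun z : (Code × Facts × ℕ × Bool) × Facts => z.1.2.2) :=
      Primrec.snd.comp (Primrec.snd.comp h1)
    exact (Primrec.fst.comp h1).pair (Primrec.snd.pair ((Primrec.fst.comp h2).pair
      (Primrec.snd.comp h2)))

/-- `HM` with a fixed code, precomposed with a computable function -/
theorem re_HM_comp {α : Type*} [Primcodable α] (c : Code) {D : α → Facts} {n : α → ℕ}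
    {v : α → Bool} (hD : Computable D) (hn : Computable n) (hv : Computable v) :
    REPred (fun x => HM c (D x) (n x) (v x)) :=
  re_comp re_HM (f := fun x => (c, D x, n x, v x))
    ((Computable.const c).pair (hD.pair (hn.pair hv)))

theorem re_Hit_comp {α : Type*} [Primcodable α] (c : Code) {D : α → Facts} {n : α → ℕ}
    {v : α → Bool} (hD : Computable D) (hn : Computable n) (hv : Computable v) :
    REPred (fun x => Hit c (D x) (n x) (v x)) :=
  re_comp re_hit (f := fun x => (c, D x, n x, v x))
    ((Computable.const c).pair (hD.pair (hn.pair hv)))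

theorem Red_iff_HM {c : Code} {b a : Om} :
    Red c b a ↔ ∀ n v, a n = v ↔ ∃ D, Tr b D ∧ HM c D n v := by
  have key : ∀ n v, (∃ D, Tr b D ∧ HM c D n v) ↔ ∃ D, Tr b D ∧ Hit c D n v := by
    intro n v
    constructor
    · rintro ⟨D, hD, D', h1, h2⟩
      exact ⟨D', hD.mono h1, h2⟩
    · rintro ⟨D, hD, h⟩
      exact ⟨D, hD, h.hm⟩
  constructor
  · intro h n v
    rw [key]; exact h n v
  · intro h n v
    rw [← key]; exact h n v

/-- to build a functional -/
theorem UR_of_re {a b : I → Om} (p : Facts → ℕ → Bool → Prop)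
    (hp : REPred (fun x : Facts × ℕ × Bool => p x.1 x.2.1 x.2.2))
    (h : ∀ i n v, b i n = v ↔ ∃ D, Tr (a i) D ∧ p D n v) : UR a b := by
  obtain ⟨c, hc⟩ := hit_code hp
  refine ⟨c, fun i n v => ?_⟩
  rw [h]
  simp only [hc]

theorem Tr.singleton {b : Om} {n : ℕ} {v : Bool} (h : b n = v) : Tr b [(n, v)] := by
  intro f hf
  rw [List.mem_singleton] at hf
  subst hf; exact h

/-- collecting finitely many monotone conditions -/
theorem Tr_collect {b : Om} {β : Type*} (P : Facts → β → Prop)
    (hP : ∀ D E x, (∀ y ∈ D, y ∈ E) → P D x → P E x) (L : List β)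
    (h : ∀ x ∈ L, ∃ D, Tr b D ∧ P D x) : ∃ D, Tr b D ∧ ∀ x ∈ L, P D x := by
  induction L with
  | nil => exact ⟨[], Tr.nil b, by simp⟩
  | cons x L ih =>
    obtain ⟨D, hD, hDP⟩ := ih (fun y hy => h y (List.mem_cons_of_mem _ hy))
    obtain ⟨E, hE, hEP⟩ := h x List.mem_cons_self
    refine ⟨D ++ E, hD.append hE, ?_⟩
    intro y hy
    rcases List.mem_cons.1 hy with rfl | hy
    · exact hP _ _ _ (fun z hz => List.mem_append_right _ hz) hEP
    · exact hP _ _ _ (fun z hz => List.mem_append_left _ hz) (hDP y hy)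

theorem UR.refl (a : I → Om) : UR a a := by
  refine UR_of_re (fun D n v => (n, v) ∈ D) (re_of_prim ?_) ?_
  · exact pr_mem.comp (Primrec.snd) Primrec.fst
  · intro i n v
    constructor
    · intro h
      exact ⟨[(n, v)], Tr.singleton h, by simp⟩
    · rintro ⟨D, hD, h⟩
      exact hD _ h

/-- `a` computes `b`, `b` computes `d`. Take
`W'' D n v :↔ ∃ E, Hit c' E n v ∧ ∀ f ∈ E, ∃ D', (∀ x ∈ D', x ∈ D) ∧ Hit c D' f.1 f.2`. -/
theorem UR.comp {a b d : I → Om} (h : UR a b) (h' : UR b d) : UR a d := by
  obtain ⟨c, hc⟩ := h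
  obtain ⟨c', hc'⟩ := h'
  refine UR_of_re (fun D n v => ∃ E : Facts, Hit c' E n v ∧ ∀ f ∈ E, HM c D f.1 f.2) ?_ ?_
  · refine re_ex (p := fun z : (Facts × ℕ × Bool) × Facts =>
      Hit c' z.2 z.1.2.1 z.1.2.2 ∧ ∀ f ∈ z.2, HM c z.1.1 f.1 f.2) ?_
    refine re_and ?_ ?_
    · exact re_Hit_comp c' Computable.snd
        (Computable.fst.comp (Computable.snd.comp Computable.fst))
        (Computable.snd.comp (Computable.snd.comp Computable.fst))
    · refine re_all_mem (p := fun y : ((Facts × ℕ × Bool) × Facts) × (ℕ × Bool) =>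
        HM c y.1.1.1 y.2.1 y.2.2) ?_ Computable.snd
      exact re_HM_comp c (Computable.fst.comp (Computable.fst.comp Computable.fst))
        (Computable.fst.comp Computable.snd) (Computable.snd.comp Computable.snd)
  · intro i n v
    have h1 := hc' i n v
    have h2 := Red_iff_HM.1 (hc i)
    constructor
    · intro hv
      obtain ⟨E, hE, hEh⟩ := h1.1 hv
      obtain ⟨D, hD, hDP⟩ := Tr_collect (b := a i) (fun D (f : ℕ × Bool) => HM c D f.1 f.2)
        (fun D E x hs hx => hx.mono hs) E (fun f hf => (h2 f.1 f.2).1 (hE f hf))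
      exact ⟨D, hD, E, hEh, hDP⟩
    · rintro ⟨D, hD, E, hEh, hDP⟩
      exact h1.2 ⟨E, fun f hf => (h2 f.1 f.2).2 ⟨D, hD, hDP f hf⟩, hEh⟩

theorem pr_even {α : Type*} [Primcodable α] {f : α → ℕ} (hf : Primrec f) (r : ℕ) :
    PrimrecPred (fun x => f x % 2 = r) :=
  PrimrecRel.comp Primrec.eq (Primrec.nat_mod.comp hf (Primrec.const 2)) (Primrec.const r)

theorem pr_half {α : Type*} [Primcodable α] {f : α → ℕ} (hf : Primrec f) :
    Primrec (fun x => f x / 2) :=
  Primrec.nat_div.comp hf (Primrec.const 2)

theorem UR.join {a b b' : I → Om} (h : UR a b) (h' : UR a b') :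
    UR a (fun i => join (b i) (b' i)) := by
  obtain ⟨c, hc⟩ := h
  obtain ⟨c', hc'⟩ := h'
  refine UR_of_re (fun D n v => (n % 2 = 0 ∧ Hit c D (n / 2) v) ∨
    (n % 2 = 1 ∧ Hit c' D (n / 2) v)) ?_ ?_
  · have hn : Primrec (fun x : Facts × ℕ × Bool => x.2.1) := Primrec.fst.comp Primrec.snd
    refine re_or (re_and (re_of_prim (pr_even hn 0)) ?_) (re_and (re_of_prim (pr_even hn 1)) ?_)
    · exact re_Hit_comp c Computable.fst (pr_half hn).to_comp (Computable.snd.comp Computable.snd)
    · exact re_Hit_comp c' Computable.fst (pr_half hn).to_comp (Computable.snd.comp Computable.snd)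
  · intro i n v
    rcases Nat.mod_two_eq_zero_or_one n with hn | hn
    · have h1 := hc i (n / 2) v
      simp only [R292.join, hn, if_true, true_and, zero_ne_one, false_and, or_false]
      exact h1
    · have h1 := hc' i (n / 2) v
      simp only [R292.join, hn, one_ne_zero, if_false, true_and, false_and, false_or]
      exact h1

theorem UR.left (a b : I → Om) : UR (fun i => R292.join (a i) (b i)) a := by
  refine UR_of_re (fun D n v => (2 * n, v) ∈ D) (re_of_prim ?_) ?_
  · exact pr_mem.comp ((Primrec.nat_double.comp (Primrec.fst.comp Primrec.snd)).pair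
      (Primrec.snd.comp Primrec.snd)) Primrec.fst
  · intro i n v
    constructor
    · intro h
      exact ⟨[(2 * n, v)], Tr.singleton (by simpa using h), by simp⟩
    · rintro ⟨D, hD, h⟩
      have := hD _ h
      simpa using this

theorem UR.right (a b : I → Om) : UR (fun i => R292.join (a i) (b i)) b := by
  refine UR_of_re (fun D n v => (2 * n + 1, v) ∈ D) (re_of_prim ?_) ?_
  · exact pr_mem.comp ((Primrec.nat_double_succ.comp (Primrec.fst.comp Primrec.snd)).pair
      (Primrec.snd.comp Primrec.snd)) Primrec.fst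
  · intro i n v
    constructor
    · intro h
      exact ⟨[(2 * n + 1, v)], Tr.singleton (by simpa using h), by simp⟩
    · rintro ⟨D, hD, h⟩
      have := hD _ h
      simpa using this

theorem UR.cond {a b b' : I → Om} {x : I → Bool} (hx : UR a (fun i => cst (x i)))
    (h : UR a b) (h' : UR a b') : UR a (fun i => if x i then b i else b' i) := by
  obtain ⟨cx, hcx⟩ := hx
  obtain ⟨c, hc⟩ := h
  obtain ⟨c', hc'⟩ := h'
  refine UR_of_re (fun D n v => (HM cx D 0 true ∧ HM c D n v) ∨
    (HM cx D 0 false ∧ HM c' D n v)) ?_ ?_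
  · have hn : Computable (fun x : Facts × ℕ × Bool => x.2.1) :=
      Computable.fst.comp Computable.snd
    have hv : Computable (fun x : Facts × ℕ × Bool => x.2.2) :=
      Computable.snd.comp Computable.snd
    have hD : Computable (fun x : Facts × ℕ × Bool => x.1) := Computable.fst
    exact re_or
      (re_and (re_HM_comp cx hD (Computable.const 0) (Computable.const true))
        (re_HM_comp c hD hn hv))
      (re_and (re_HM_comp cx hD (Computable.const 0) (Computable.const false))
        (re_HM_comp c' hD hn hv))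
  · intro i n v
    have h0 := Red_iff_HM.1 (hcx i) 0
    have h1 := Red_iff_HM.1 (hc i) n v
    have h2 := Red_iff_HM.1 (hc' i) n v
    constructor
    · intro hv
      cases hxi : x i with
      | true =>
        rw [hxi] at hv
        simp only [if_true] at hv
        obtain ⟨D, hD, hDh⟩ := h1.1 hv
        obtain ⟨E, hE, hEh⟩ := (h0 true).1 (by simp [cst, hxi])
        exact ⟨D ++ E, hD.append hE, Or.inl
          ⟨hEh.mono (fun z hz => List.mem_append_right _ hz),
            hDh.mono (fun z hz => List.mem_append_left _ hz)⟩⟩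
      | false =>
        rw [hxi] at hv
        simp only [Bool.false_eq_true, if_false] at hv
        obtain ⟨D, hD, hDh⟩ := h2.1 hv
        obtain ⟨E, hE, hEh⟩ := (h0 false).1 (by simp [cst, hxi])
        exact ⟨D ++ E, hD.append hE, Or.inr
          ⟨hEh.mono (fun z hz => List.mem_append_right _ hz),
            hDh.mono (fun z hz => List.mem_append_left _ hz)⟩⟩
    · rintro ⟨D, hD, h | h⟩
      · have hxi : x i = true := (h0 true).2 ⟨D, hD, h.1⟩
        rw [hxi]
        simp only [if_true]
        exact h1.2 ⟨D, hD, h.2⟩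
      · have hxi : x i = false := (h0 false).2 ⟨D, hD, h.1⟩
        rw [hxi]
        simp only [Bool.false_eq_true, if_false]
        exact h2.2 ⟨D, hD, h.2⟩

theorem UR.bit (a : I → Om) (n : ℕ) : UR a (fun i => cst (a i n)) := by
  refine UR_of_re (fun D _ v => (n, v) ∈ D) (re_of_prim ?_) ?_
  · exact pr_mem.comp ((Primrec.const n).pair (Primrec.snd.comp Primrec.snd)) Primrec.fst
  · intro i m v
    constructor
    · intro h
      exact ⟨[(n, v)], Tr.singleton h, by simp⟩
    · rintro ⟨D, hD, h⟩
      exact hD _ h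

theorem UR.const (a : I → Om) (x : Bool) : UR a (fun _ => cst x) := by
  refine UR_of_re (fun _ _ v => v = x) (re_of_prim ?_) ?_
  · exact PrimrecRel.comp Primrec.eq (Primrec.snd.comp Primrec.snd) (Primrec.const x)
  · intro i m v
    constructor
    · intro h
      exact ⟨[], Tr.nil _, h.symm⟩
    · rintro ⟨D, hD, h⟩
      exact h.symm

theorem UR.of_Red {a b : I → Om} {c : Code} (h : ∀ i, Red c (a i) (b i)) : UR a b := ⟨c, h⟩


/-- auxiliary: facts about `join O Z` reduced to facts `D` about `join O Z0` and a predicate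
for the facts about `Z`. -/
def Lift (P : ℕ → Bool → Prop) (D E : Facts) : Prop :=
  ∀ f ∈ E, (f.1 % 2 = 0 ∧ f ∈ D) ∨ (f.1 % 2 = 1 ∧ P (f.1 / 2) f.2)

theorem Tr_join_iff {O Z Z0 : Om} {P : Facts → ℕ → Bool → Prop}
    (hmono : ∀ D E n v, (∀ y ∈ D, y ∈ E) → P D n v → P E n v)
    (hP : ∀ n v, Z n = v ↔ ∃ D, Tr (join O Z0) D ∧ P D n v) (E : Facts) :
    Tr (join O Z) E ↔ ∃ D, Tr (join O Z0) D ∧ Lift (P D) D E := by
  constructor
  · intro h
    refine Tr_collect (b := join O Z0)
      (fun D (f : ℕ × Bool) => (f.1 % 2 = 0 ∧ f ∈ D) ∨ (f.1 % 2 = 1 ∧ P D (f.1 / 2) f.2)) ?_ E ?_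
    · rintro D E x hs (h | h)
      · exact Or.inl ⟨h.1, hs _ h.2⟩
      · exact Or.inr ⟨h.1, hmono _ _ _ _ hs h.2⟩
    · intro f hf
      have hfv := h f hf
      rcases Nat.mod_two_eq_zero_or_one f.1 with hn | hn
      · refine ⟨[f], ?_, Or.inl ⟨hn, by simp⟩⟩
        intro g hg
        rw [List.mem_singleton] at hg
        subst hg
        simpa [join, hn] using hfv
      · have : Z (f.1 / 2) = f.2 := by simpa [join, hn] using hfv
        obtain ⟨D, hD, hDP⟩ := (hP _ _).1 this
        exact ⟨D, hD, Or.inr ⟨hn, hDP⟩⟩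
  · rintro ⟨D, hD, hL⟩ f hf
    rcases hL f hf with ⟨hn, h⟩ | ⟨hn, h⟩
    · have := hD f h
      simpa [join, hn] using this
    · have := (hP _ _).2 ⟨D, hD, h⟩
      simpa [join, hn] using this

/-- Iteration: if `Z (k+1)` is computed from `O ⊕ Z k` uniformly in `k` and the bit `X k` is
computed from `O ⊕ Z k` uniformly in `k`, then `X` is computed from `O ⊕ Z 0`.

Proof: by `re_rec` there is an r.e. set `W` of `(D, k, i, w)` (`D : Facts` about `O ⊕ Z 0`) with
`W (D, 0, i, w) ↔ (2*i+1, w) ∈ D` and
`W (D, k+1, i, w) ↔ ∃ E, Hit c E i w ∧ ∀ f ∈ E, if f.1 is even then (f.1, f.2) ∈ D else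
  W (D, k, f.1 / 2, f.2)`. By induction on `k`: `Z k i = w ↔ ∃ D, Tr (join O (Z 0)) D ∧ W (D,k,i,w)`.
Then compose with the functional for `X`. -/
theorem Red_iter {O : Om} {Z : ℕ → Om} {X : Om}
    (hs : UR (fun k => R292.join O (Z k)) (fun k => Z (k + 1)))
    (hx : UR (fun k => R292.join O (Z k)) (fun k => cst (X k))) :
    ∃ c, Red c (R292.join O (Z 0)) X := by
  obtain ⟨c, hc⟩ := hs
  obtain ⟨cX, hcX⟩ := hx
  -- the recursion
  have hre : REPred (fun y : Code × (Facts × ℕ × ℕ × Bool) =>
      (y.2.2.1 = 0 ∧ (2 * y.2.2.2.1 + 1, y.2.2.2.2) ∈ y.2.1) ∨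
      (y.2.2.1 ≠ 0 ∧ ∃ E : Facts, Hit c E y.2.2.2.1 y.2.2.2.2 ∧
        ∀ f ∈ E, (f.1 % 2 = 0 ∧ f ∈ y.2.1) ∨
          (f.1 % 2 = 1 ∧ (y.1.eval (encode (y.2.1, y.2.2.1 - 1, f.1 / 2, f.2))).Dom))) := by
    have hk : Primrec (fun y : Code × (Facts × ℕ × ℕ × Bool) => y.2.2.1) :=
      Primrec.fst.comp (Primrec.snd.comp Primrec.snd)
    have hi : Primrec (fun y : Code × (Facts × ℕ × ℕ × Bool) => y.2.2.2.1) :=
      Primrec.fst.comp (Primrec.snd.comp (Primrec.snd.comp Primrec.snd))
    have hw : Primrec (fun y : Code × (Facts × ℕ × ℕ × Bool) => y.2.2.2.2) :=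
      Primrec.snd.comp (Primrec.snd.comp (Primrec.snd.comp Primrec.snd))
    have hD : Primrec (fun y : Code × (Facts × ℕ × ℕ × Bool) => y.2.1) :=
      Primrec.fst.comp Primrec.snd
    have hk0 : PrimrecPred (fun y : Code × (Facts × ℕ × ℕ × Bool) => y.2.2.1 = 0) :=
      PrimrecRel.comp Primrec.eq hk (Primrec.const 0)
    refine re_or (re_and (re_of_prim hk0) (re_of_prim ?_)) (re_and (re_of_prim hk0.not) ?_)
    · exact pr_mem.comp ((Primrec.nat_double_succ.comp hi).pair hw) hD
    · refine re_ex (p := fun z : (Code × (Facts × ℕ × ℕ × Bool)) × Facts =>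
        Hit c z.2 z.1.2.2.2.1 z.1.2.2.2.2 ∧
        ∀ f ∈ z.2, (f.1 % 2 = 0 ∧ f ∈ z.1.2.1) ∨
          (f.1 % 2 = 1 ∧ (z.1.1.eval (encode (z.1.2.1, z.1.2.2.1 - 1, f.1 / 2, f.2))).Dom)) ?_
      refine re_and ?_ ?_
      · exact re_Hit_comp c Computable.snd (hi.comp Primrec.fst).to_comp
          (hw.comp Primrec.fst).to_comp
      · refine re_all_mem (p := fun u : ((Code × (Facts × ℕ × ℕ × Bool)) × Facts) × (ℕ × Bool) =>
          (u.2.1 % 2 = 0 ∧ u.2 ∈ u.1.1.2.1) ∨
          (u.2.1 % 2 = 1 ∧ (u.1.1.1.eval
            (encode (u.1.1.2.1, u.1.1.2.2.1 - 1, u.2.1 / 2, u.2.2))).Dom)) ?_ Computable.snd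
        have hf1 : Primrec (fun u : ((Code × (Facts × ℕ × ℕ × Bool)) × Facts) × (ℕ × Bool) =>
          u.2.1) := Primrec.fst.comp Primrec.snd
        have hy : Primrec (fun u : ((Code × (Facts × ℕ × ℕ × Bool)) × Facts) × (ℕ × Bool) =>
          u.1.1) := Primrec.fst.comp Primrec.fst
        refine re_or (re_and (re_of_prim (pr_even hf1 0)) (re_of_prim ?_))
          (re_and (re_of_prim (pr_even hf1 1)) ?_)
        · exact pr_mem.comp Primrec.snd (hD.comp hy)
        · refine re_comp re_eval
            (f := fun u : ((Code × (Facts × ℕ × ℕ × Bool)) × Facts) × (ℕ × Bool) =>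
            (u.1.1.1, encode (u.1.1.2.1, u.1.1.2.2.1 - 1, u.2.1 / 2, u.2.2))) ?_
          refine Primrec.to_comp ?_
          refine (Primrec.fst.comp hy).pair ?_
          refine Primrec.encode.comp ?_
          refine (hD.comp hy).pair ?_
          refine (Primrec.nat_sub.comp (hk.comp hy) (Primrec.const 1)).pair ?_
          exact (pr_half hf1).pair (Primrec.snd.comp Primrec.snd)
  obtain ⟨e, he⟩ := re_rec hre
  set W : ℕ → Facts → ℕ → Bool → Prop := fun k D i w => (e.eval (encode (D, k, i, w))).Dom
    with hW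
  have hW0 : ∀ D i w, W 0 D i w ↔ (2 * i + 1, w) ∈ D := by
    intro D i w
    have := he (D, 0, i, w)
    simpa [hW] using this
  have hW1 : ∀ k D i w, W (k + 1) D i w ↔ ∃ E : Facts, Hit c E i w ∧ Lift (W k D) D E := by
    intro k D i w
    have := he (D, k + 1, i, w)
    simpa [hW, Lift] using this
  have hmono : ∀ k D E i w, (∀ y ∈ D, y ∈ E) → W k D i w → W k E i w := by
    intro k
    induction k with
    | zero =>
      intro D E i w hs h
      rw [hW0] at h ⊢
      exact hs _ h
    | succ k ih =>
      intro D E i w hs h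
      rw [hW1] at h ⊢
      obtain ⟨E', h1, h2⟩ := h
      refine ⟨E', h1, fun f hf => ?_⟩
      rcases h2 f hf with h | h
      · exact Or.inl ⟨h.1, hs _ h.2⟩
      · exact Or.inr ⟨h.1, ih _ _ _ _ hs h.2⟩
  have hcorr : ∀ k i w, Z k i = w ↔ ∃ D, Tr (join O (Z 0)) D ∧ W k D i w := by
    intro k
    induction k with
    | zero =>
      intro i w
      constructor
      · intro h
        exact ⟨[(2 * i + 1, w)], Tr.singleton (by simpa using h), by rw [hW0]; simp⟩
      · rintro ⟨D, hD, h⟩
        rw [hW0] at h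
        have := hD _ h
        simpa using this
    | succ k ih =>
      intro i w
      rw [hc k i w]
      constructor
      · rintro ⟨E, hE, hEh⟩
        obtain ⟨D, hD, hL⟩ := (Tr_join_iff (hmono k) ih E).1 hE
        exact ⟨D, hD, (hW1 _ _ _ _).2 ⟨E, hEh, hL⟩⟩
      · rintro ⟨D, hD, h⟩
        obtain ⟨E, hEh, hL⟩ := (hW1 _ _ _ _).1 h
        exact ⟨E, (Tr_join_iff (hmono k) ih E).2 ⟨D, hD, hL⟩, hEh⟩
  have hfin : REPred (fun x : Facts × ℕ × Bool =>
      ∃ E : Facts, Hit cX E 0 x.2.2 ∧ Lift (W x.2.1 x.1) x.1 E) := by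
    refine re_ex (p := fun z : (Facts × ℕ × Bool) × Facts =>
      Hit cX z.2 0 z.1.2.2 ∧ Lift (W z.1.2.1 z.1.1) z.1.1 z.2) ?_
    refine re_and ?_ ?_
    · exact re_Hit_comp cX Computable.snd (Computable.const 0)
        (Computable.snd.comp (Computable.snd.comp Computable.fst))
    · refine re_all_mem (p := fun u : ((Facts × ℕ × Bool) × Facts) × (ℕ × Bool) =>
        (u.2.1 % 2 = 0 ∧ u.2 ∈ u.1.1.1) ∨
        (u.2.1 % 2 = 1 ∧ (e.eval (encode (u.1.1.1, u.1.1.2.1, u.2.1 / 2, u.2.2))).Dom)) ?_
        Computable.snd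
      have hf1 : Primrec (fun u : ((Facts × ℕ × Bool) × Facts) × (ℕ × Bool) => u.2.1) :=
        Primrec.fst.comp Primrec.snd
      have hD : Primrec (fun u : ((Facts × ℕ × Bool) × Facts) × (ℕ × Bool) => u.1.1.1) :=
        Primrec.fst.comp (Primrec.fst.comp Primrec.fst)
      have hk : Primrec (fun u : ((Facts × ℕ × Bool) × Facts) × (ℕ × Bool) => u.1.1.2.1) :=
        Primrec.fst.comp (Primrec.snd.comp (Primrec.fst.comp Primrec.fst))
      refine re_or (re_and (re_of_prim (pr_even hf1 0)) (re_of_prim ?_))
        (re_and (re_of_prim (pr_even hf1 1)) ?_)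
      · exact pr_mem.comp Primrec.snd hD
      · refine re_comp re_eval
          (f := fun u : ((Facts × ℕ × Bool) × Facts) × (ℕ × Bool) =>
          (e, encode (u.1.1.1, u.1.1.2.1, u.2.1 / 2, u.2.2))) ?_
        refine Primrec.to_comp ?_
        refine (Primrec.const e).pair ?_
        refine Primrec.encode.comp ?_
        exact hD.pair (hk.pair ((pr_half hf1).pair (Primrec.snd.comp Primrec.snd)))
  obtain ⟨d, hd⟩ := hit_code (p := fun D n v => ∃ E : Facts, Hit cX E 0 v ∧ Lift (W n D) D E) hfin
  refine ⟨d, fun k w => ?_⟩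
  have h1 : X k = w ↔ ∃ E, Tr (join O (Z k)) E ∧ Hit cX E 0 w := hcX k 0 w
  rw [h1]
  simp only [hd]
  constructor
  · rintro ⟨E, hE, hEh⟩
    obtain ⟨D, hD, hL⟩ := (Tr_join_iff (hmono k) (hcorr k) E).1 hE
    exact ⟨D, hD, E, hEh, hL⟩
  · rintro ⟨D, hD, E, hEh, hL⟩
    exact ⟨E, (Tr_join_iff (hmono k) (hcorr k) E).2 ⟨D, hD, hL⟩, hEh⟩

/-- truth-table reductions -/
theorem Red_of_tt {a b : Om} (u : ℕ → ℕ) (h : ℕ → List Bool → Bool) (hu : Computable u)
    (hh : Computable₂ h) (H : ∀ n, a n = h n ((List.range (u n)).map b)) : ∃ c, Red c b a := by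
  have hre : REPred (fun x : Facts × ℕ × Bool => ∃ l : List Bool,
      (l.length = u x.2.1 ∧ h x.2.1 l = x.2.2) ∧ ∀ j < l.length, (j, l.getD j false) ∈ x.1) := by
    refine re_ex (p := fun z : (Facts × ℕ × Bool) × List Bool =>
      (z.2.length = u z.1.2.1 ∧ h z.1.2.1 z.2 = z.1.2.2) ∧
        ∀ j < z.2.length, (j, z.2.getD j false) ∈ z.1.1) ?_
    have hn : Primrec (fun z : (Facts × ℕ × Bool) × List Bool => z.1.2.1) :=
      Primrec.fst.comp (Primrec.snd.comp Primrec.fst)
    refine re_and (re_and ?_ ?_) ?_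
    · refine ComputablePred.to_re ?_
      refine Computable.computablePred ?_
      exact (Primrec.eq (α := ℕ)).decide.to_comp.comp
        (Primrec.list_length.comp Primrec.snd).to_comp (hu.comp hn.to_comp)
    · refine ComputablePred.to_re ?_
      refine Computable.computablePred ?_
      exact (Primrec.eq (α := Bool)).decide.to_comp.comp
        (hh.comp hn.to_comp Computable.snd)
        (Primrec.snd.comp (Primrec.snd.comp Primrec.fst)).to_comp
    · refine re_of_prim ?_
      have hR : PrimrecRel (fun (j : ℕ) (y : List Bool × Facts) => (j, y.1.getD j false) ∈ y.2) := by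
        refine pr_mem.comp ?_ ?_
        · exact Primrec.fst.pair ((Primrec.list_getD false).comp
            (Primrec.fst.comp Primrec.snd) Primrec.fst)
        · exact Primrec.snd.comp Primrec.snd
      have := (hR.forall_mem_list).comp
        (f := fun z : (Facts × ℕ × Bool) × List Bool => List.range z.2.length)
        (g := fun z : (Facts × ℕ × Bool) × List Bool => (z.2, z.1.1))
        (Primrec.list_range.comp (Primrec.list_length.comp Primrec.snd))
        (Primrec.snd.pair (Primrec.fst.comp Primrec.fst))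
      exact this.of_eq (fun z => by simp)
  obtain ⟨c, hc⟩ := hit_code (p := fun D n v => ∃ l : List Bool,
      (l.length = u n ∧ h n l = v) ∧ ∀ j < l.length, (j, l.getD j false) ∈ D) hre
  refine ⟨c, fun n v => ?_⟩
  simp only [hc]
  constructor
  · intro hv
    refine ⟨(List.range (u n)).map (fun j => (j, b j)), ?_, (List.range (u n)).map b,
      ⟨by simp, by rw [← H n]; exact hv⟩, ?_⟩
    · intro f hf
      rw [List.mem_map] at hf
      obtain ⟨j, _, rfl⟩ := hf
      rfl
    · intro j hj
      rw [List.mem_map]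
      refine ⟨j, by simpa using hj, ?_⟩
      simp at hj
      simp [List.getD, hj]
  · rintro ⟨D, hD, l, ⟨hl, hv⟩, hm⟩
    rw [H n, ← hv]
    congr 1
    apply List.ext_getElem
    · simp [hl]
    · intro j h1 h2
      have := hD _ (hm j h2)
      simp only [List.getElem_map, List.getElem_range]
      rw [this]
      simp [List.getD, h2]

end Crest.Agent.R292
end

-- ▼ part R292/AlgEq
section

/-!
# R292: algebra and continuity in `F_2[[t]]`
-/

set_option autoImplicit false

namespace Crest.Agent.R292

/-! ## Algebra -/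

theorem cv_add (x a b : Om) : cv x (add a b) = add (cv x a) (cv x b) := by
  have key : ∀ (n : ℕ) (x : Om), cv x (add a b) n = add (cv x a) (cv x b) n := by
    intro n
    induction n with
    | zero =>
      intro x
      simp only [cv, add]
      cases x 0 <;> cases a 0 <;> cases b 0 <;> rfl
    | succ n ih =>
      intro x
      simp only [cv, add]
      rw [ih (ls x)]
      simp only [add]
      cases x 0 <;> cases a (n + 1) <;> cases b (n + 1) <;> cases cv (ls x) a n <;>
        cases cv (ls x) b n <;> rfl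
  funext n
  exact key n x

theorem sh_add (a b : Om) : sh (add a b) = add (sh a) (sh b) := by
  funext n
  cases n with
  | zero => rfl
  | succ n => rfl

theorem shn_add (m : ℕ) (a b : Om) : shn m (add a b) = add (shn m a) (shn m b) := by
  funext n
  simp only [shn, add]
  split_ifs <;> rfl

theorem shn_zero (a : Om) : shn 0 a = a := by
  funext n
  simp [shn]

theorem shn_succ (m : ℕ) (a : Om) : shn (m + 1) a = sh (shn m a) := by
  funext n
  cases n with
  | zero => simp [shn, sh]
  | succ n =>
    simp only [shn, sh]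
    by_cases h : n < m
    · rw [if_pos h, if_pos (by omega)]
    · rw [if_neg h, if_neg (by omega)]
      congr 1
      omega

theorem sh_shn (m : ℕ) (a : Om) : sh (shn m a) = shn m (sh a) := by
  funext n
  cases n with
  | zero =>
    simp only [shn, sh]
    split_ifs
    · rfl
    · simp
  | succ n =>
    simp only [shn, sh]
    by_cases h : n < m
    · rw [if_pos h]
      by_cases h2 : n + 1 < m
      · rw [if_pos h2]
      · rw [if_neg h2]
        have : n + 1 - m = 0 := by omega
        rw [this]
    · rw [if_neg h, if_neg (by omega)]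
      have : n + 1 - m = (n - m) + 1 := by omega
      rw [this]

theorem cv_sh (x a : Om) : cv x (sh a) = sh (cv x a) := by
  have key : ∀ (n : ℕ) (x : Om), cv x (sh a) n = sh (cv x a) n := by
    intro n
    induction n with
    | zero =>
      intro x
      simp [cv, sh]
    | succ n ih =>
      intro x
      have h1 : cv x (sh a) (n + 1) = xor (x 0 && a n) (cv (ls x) (sh a) n) := rfl
      rw [h1, ih (ls x)]
      cases n with
      | zero =>
        simp [cv, sh]
      | succ n => rfl
  funext n
  exact key n x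

theorem cv_shn (x : Om) (m : ℕ) (a : Om) : cv x (shn m a) = shn m (cv x a) := by
  induction m with
  | zero => rw [shn_zero, shn_zero]
  | succ m ih => rw [shn_succ, cv_sh, ih, shn_succ]


/-- multiplication by `γ ≡ 1 mod t^M` does not change the first `M` bits -/
theorem cv_low {M : ℕ} {γ : Om} (hγ : ∀ i < M, γ i = decide (i = 0)) (κ : Om) :
    ∀ i < M, cv κ γ i = κ i := by
  have key : ∀ (i : ℕ) (κ : Om), i < M → cv κ γ i = κ i := by
    intro i
    induction i with
    | zero =>
      intro κ h
      simp [cv, hγ 0 h]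
    | succ i ih =>
      intro κ h
      have h1 : cv κ γ (i + 1) = xor (κ 0 && γ (i + 1)) (cv (ls κ) γ i) := rfl
      rw [h1, ih (ls κ) (by omega), hγ (i + 1) h]
      simp [ls]
  intro i hi
  exact key i κ hi

theorem continuous_add : Continuous (fun p : Om × Om => add p.1 p.2) := by
  refine continuous_pi fun n => ?_
  have h1 : Continuous (fun p : Om × Om => (p.1 n, p.2 n)) :=
    ((continuous_apply n).comp continuous_fst).prodMk ((continuous_apply n).comp continuous_snd)
  have h2 : Continuous (fun q : Bool × Bool => xor q.1 q.2) := continuous_of_discreteTopology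
  exact h2.comp h1

theorem continuous_sh : Continuous sh := by
  refine continuous_pi fun n => ?_
  cases n with
  | zero => exact continuous_const
  | succ n => exact continuous_apply n


theorem continuous_shn (m : ℕ) : Continuous (shn m) := by
  refine continuous_pi fun n => ?_
  by_cases h : n < m
  · simp only [shn, if_pos h]
    exact continuous_const
  · simp only [shn, if_neg h]
    exact continuous_apply (n - m)

theorem continuous_cv (x : Om) : Continuous (cv x) := by
  have key : ∀ (n : ℕ) (x : Om), Continuous (fun a => cv x a n) := by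
    intro n
    induction n with
    | zero =>
      intro x
      have h2 : Continuous (fun q : Bool => x 0 && q) := continuous_of_discreteTopology
      exact h2.comp (continuous_apply 0)
    | succ n ih =>
      intro x
      have h2 : Continuous (fun q : Bool × Bool => xor (x 0 && q.1) q.2) :=
        continuous_of_discreteTopology
      exact h2.comp ((continuous_apply (n + 1)).prodMk (ih (ls x)))
  exact continuous_pi fun n => key n x

theorem continuous_sc (x : Bool) : Continuous (sc x) := by
  refine continuous_pi fun n => ?_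
  have h2 : Continuous (fun q : Bool => x && q) := continuous_of_discreteTopology
  exact h2.comp (continuous_apply n)

end Crest.Agent.R292
end

-- ▼ part R292/Alg
section

/-!
# R292: concrete reductions
-/

set_option autoImplicit false

namespace Crest.Agent.R292

open Encodable
open Nat.Partrec (Code)

theorem TR_of_tt {a b : Om} (u : ℕ → ℕ) (h : ℕ → List Bool → Bool) (hu : Computable u)
    (hh : Computable₂ h) (H : ∀ n, a n = h n ((List.range (u n)).map b)) : TR a b :=
  TR_iff_Red.2 (Red_of_tt u h hu hh H)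

/-- uniform reductions over a one point family -/
theorem TR_of_UR {a b : Om} (h : UR (fun _ : Unit => b) (fun _ => a)) : TR a b :=
  let ⟨c, hc⟩ := h
  TR_iff_Red.2 ⟨c, hc ()⟩

theorem UR_of_TR {a b : Om} (h : TR a b) {I : Type*} : UR (fun _ : I => b) (fun _ => a) :=
  let ⟨c, hc⟩ := TR_iff_Red.1 h
  ⟨c, fun _ => hc⟩

theorem TR_left (a b : Om) : TR a (join a b) :=
  TR_of_UR (UR.left (fun _ => a) (fun _ => b))

theorem TR_right (a b : Om) : TR b (join a b) :=
  TR_of_UR (UR.right (fun _ => a) (fun _ => b))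

theorem TR_join {a b d : Om} (h : TR a d) (h' : TR b d) : TR (join a b) d :=
  TR_of_UR (UR.join (UR_of_TR h) (UR_of_TR h'))

theorem TR_join_mono {a b a' b' : Om} (h : TR a a') (h' : TR b b') :
    TR (join a b) (join a' b') :=
  TR_join (h.trans (TR_left _ _)) (h'.trans (TR_right _ _))

theorem getD_map_range (b : Om) {k n : ℕ} (h : k < n) :
    ((List.range n).map b).getD k false = b k := by
  simp [List.getD, h]

/-- two-query reductions -/
theorem TR_of_two {a b : Om} (p q : ℕ → ℕ) (F : ℕ → Bool → Bool → Bool) (hp : Primrec p)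
    (hq : Primrec q) (hF : Primrec (fun x : ℕ × Bool × Bool => F x.1 x.2.1 x.2.2))
    (H : ∀ n, a n = F n (b (p n)) (b (q n))) : TR a b := by
  refine TR_of_tt (fun n => p n + q n + 1)
    (fun n l => F n (l.getD (p n) false) (l.getD (q n) false)) ?_ ?_ ?_
  · exact (Primrec.succ.comp (Primrec.nat_add.comp hp hq)).to_comp
  · apply Primrec₂.to_comp
    have h1 : Primrec (fun x : ℕ × List Bool => x.2.getD (p x.1) false) :=
      (Primrec.list_getD false).comp Primrec.snd (hp.comp Primrec.fst)
    have h2 : Primrec (fun x : ℕ × List Bool => x.2.getD (q x.1) false) :=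
      (Primrec.list_getD false).comp Primrec.snd (hq.comp Primrec.fst)
    exact hF.comp (Primrec.fst.pair (h1.pair h2))
  · intro n
    rw [getD_map_range b (by omega), getD_map_range b (by omega)]
    exact H n

theorem TR_add (a b : Om) : TR (add a b) (join a b) := by
  refine TR_of_two (fun n => 2 * n) (fun n => 2 * n + 1) (fun _ x y => xor x y) ?_ ?_ ?_ ?_
  · exact Primrec.nat_mul.comp (Primrec.const 2) Primrec.id
  · exact Primrec.succ.comp (Primrec.nat_mul.comp (Primrec.const 2) Primrec.id)
  · exact (Primrec.dom_bool₂ xor).comp (Primrec.fst.comp Primrec.snd)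
      (Primrec.snd.comp Primrec.snd)
  · intro n
    simp [add]

theorem TR_cst (x : Bool) (b : Om) : TR (cst x) b := by
  refine TR_of_two id id (fun _ _ _ => x) Primrec.id Primrec.id (Primrec.const x) ?_
  intro n
  rfl

theorem TR_tn (m : ℕ) (a b : Om) : TR (tn m a) b := by
  refine TR_of_two id id (fun n _ _ => ((List.range m).map a).getD n false)
    Primrec.id Primrec.id ?_ ?_
  · exact (Primrec.list_getD false).comp (Primrec.const _) Primrec.fst
  · intro n
    by_cases h : n < m
    · simp only [tn, h, if_true]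
      rw [getD_map_range a h]
    · simp [tn, h, List.getD]

theorem TR_shn (m : ℕ) (a : Om) : TR (shn m a) a := by
  refine TR_of_two (fun n => n - m) id (fun n x _ => if n < m then false else x) ?_ Primrec.id
    ?_ ?_
  · exact Primrec.nat_sub.comp Primrec.id (Primrec.const m)
  · exact Primrec.ite (Primrec.nat_lt.comp Primrec.fst (Primrec.const m)) (Primrec.const false)
      (Primrec.fst.comp Primrec.snd)
  · intro n
    rfl

theorem TR_of_shn (m : ℕ) (a : Om) : TR a (shn m a) := by
  refine TR_of_two (fun n => n + m) id (fun _ x _ => x) ?_ Primrec.id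
    (Primrec.fst.comp Primrec.snd) ?_
  · exact Primrec.nat_add.comp Primrec.id (Primrec.const m)
  · intro n
    simp [shn]

theorem TR_sh (a : Om) : TR (sh a) a := by
  have : sh a = shn 1 a := by
    funext n
    cases n <;> simp [sh, shn]
  rw [this]
  exact TR_shn 1 a

theorem TR_ls (a : Om) : TR (ls a) a := by
  refine TR_of_two (fun n => n + 1) id (fun _ x _ => x) Primrec.succ Primrec.id
    (Primrec.fst.comp Primrec.snd) ?_
  intro n
  rfl

/-- the convolution as a fold -/
theorem cv_fold (x a : Om) (n : ℕ) :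
    cv x a n = ((List.range (n + 1)).map (fun i => x i && a (n - i))).foldr xor false := by
  induction n generalizing x with
  | zero => simp [cv]
  | succ n ih =>
    rw [List.range_succ_eq_map]
    simp only [cv, List.map_cons, List.map_map, List.foldr_cons, ih]
    congr 2
    apply List.map_congr_left
    intro i hi
    simp [ls]

theorem TR_cv (x a : Om) : TR (cv x a) (join x a) := by
  refine TR_of_tt (fun n => 2 * n + 2)
    (fun n l => ((List.range (n + 1)).map
      (fun i => l.getD (2 * i) false && l.getD (2 * (n - i) + 1) false)).foldr xor false) ?_ ?_ ?_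
  · exact (Primrec.nat_add.comp (Primrec.nat_mul.comp (Primrec.const 2) Primrec.id)
      (Primrec.const 2)).to_comp
  · apply Primrec₂.to_comp
    have h1 : Primrec (fun y : (ℕ × List Bool) × ℕ => y.1.2.getD (2 * y.2) false) :=
      (Primrec.list_getD false).comp (Primrec.snd.comp Primrec.fst)
        (Primrec.nat_mul.comp (Primrec.const 2) Primrec.snd)
    have h2 : Primrec (fun y : (ℕ × List Bool) × ℕ =>
        y.1.2.getD (2 * (y.1.1 - y.2) + 1) false) :=
      (Primrec.list_getD false).comp (Primrec.snd.comp Primrec.fst)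
        (Primrec.succ.comp (Primrec.nat_mul.comp (Primrec.const 2)
          (Primrec.nat_sub.comp (Primrec.fst.comp Primrec.fst) Primrec.snd)))
    have h3 : Primrec₂ (fun (y : ℕ × List Bool) (i : ℕ) =>
        (y.2.getD (2 * i) false && y.2.getD (2 * (y.1 - i) + 1) false)) :=
      (Primrec.and.comp h1 h2)
    have h4 : Primrec (fun y : ℕ × List Bool => (List.range (y.1 + 1)).map (fun i =>
        (y.2.getD (2 * i) false && y.2.getD (2 * (y.1 - i) + 1) false))) :=
      Primrec.list_map (Primrec.list_range.comp (Primrec.succ.comp Primrec.fst)) h3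
    have h5 : Primrec₂ (fun (_ : ℕ × List Bool) (p : Bool × Bool) => xor p.1 p.2) :=
      (Primrec.dom_bool₂ xor).comp (Primrec.fst.comp Primrec.snd)
        (Primrec.snd.comp Primrec.snd)
    exact Primrec.list_foldr h4 (Primrec.const false) h5
  · intro n
    rw [cv_fold]
    congr 1
    apply List.map_congr_left
    intro i hi
    have hi' : i < n + 1 := List.mem_range.1 hi
    rw [getD_map_range _ (by omega), getD_map_range _ (by omega), join_even, join_odd]

theorem TR_col (A : Om) (i : ℕ) : TR (col A i) A := by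
  refine TR_of_two (fun n => Nat.pair i n) id (fun _ x _ => x) ?_ Primrec.id
    (Primrec.fst.comp Primrec.snd) ?_
  · exact Primrec₂.natPair.comp (Primrec.const i) Primrec.id
  · intro n
    rfl

theorem TR_keep (Y A : Om) : TR (keep Y A) (join Y A) := by
  refine TR_of_two (fun n => 2 * (Nat.unpair n).1) (fun n => 2 * n + 1) (fun _ x y => x && y)
    ?_ ?_ ?_ ?_
  · exact Primrec.nat_mul.comp (Primrec.const 2) (Primrec.fst.comp Primrec.unpair)
  · exact Primrec.succ.comp (Primrec.nat_mul.comp (Primrec.const 2) Primrec.id)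
  · exact Primrec.and.comp (Primrec.fst.comp Primrec.snd) (Primrec.snd.comp Primrec.snd)
  · intro n
    simp [keep]

theorem keep_del {Y A : Om} {i : ℕ} (h : Y i = false) : keep Y A = keep Y (del A i) := by
  funext m
  by_cases hm : (Nat.unpair m).1 = i
  · simp [keep, del, hm, h]
  · simp [keep, del, hm]

theorem col_keep {Y A : Om} {i : ℕ} (h : Y i = true) : col (keep Y A) i = col A i := by
  funext n
  simp [col, keep, h]


/-- finite joins -/
theorem TR_jn {N : ℕ} {B : ℕ → Om} {d : Om} (h : ∀ i < N, TR (B i) d) : TR (jn N B) d := by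
  induction N with
  | zero => exact TR_cst false d
  | succ N ih => exact TR_join (ih fun i hi => h i (by omega)) (h N (by omega))

theorem UR_jn {N : ℕ} {B : ℕ → Om} {i : ℕ} (h : i < N) {I : Type*} :
    UR (fun _ : I => jn N B) (fun _ => B i) := by
  induction N with
  | zero => omega
  | succ N ih =>
    by_cases hi : i = N
    · subst hi
      exact UR.right (fun _ => jn i B) (fun _ => B i)
    · exact UR.comp (UR.left (fun _ => jn N B) (fun _ => B N)) (ih (by omega))

end Crest.Agent.R292
end

-- ▼ part R292/Cat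
section

/-!
# R292: Baire category lemmas
-/

set_option autoImplicit false

namespace Crest.Agent.R292

open Topology Set Filter

/-- everywhere nonmeager -/
def EN {α : Type*} [TopologicalSpace α] (A : Set α) : Prop :=
  ∀ U, IsOpen U → U.Nonempty → ¬ IsMeagre (A ∩ U)

/-- sections of a dense open set -/
theorem residual_section_open {α β : Type*} [TopologicalSpace α] [TopologicalSpace β]
    [SecondCountableTopology β] {O : Set (α × β)} (hO : IsOpen O) (hd : Dense O) :
    ∀ᶠ a in residual α, {b | (a, b) ∈ O} ∈ residual β := by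
  have h1 : ∀ V ∈ TopologicalSpace.countableBasis β, V.Nonempty →
      ∀ᶠ a in residual α, ∃ b ∈ V, (a, b) ∈ O := by
    intro V hV hne
    have hVo : IsOpen V := TopologicalSpace.isOpen_of_mem_countableBasis hV
    have hset : {a | ∃ b ∈ V, (a, b) ∈ O} = Prod.fst '' (O ∩ (univ ×ˢ V)) := by
      ext a
      simp only [mem_ofPred, mem_image, mem_inter_iff, mem_prod, mem_univ, true_and,
        Prod.exists, exists_and_right, exists_eq_right]
      constructor
      · rintro ⟨b, hb, hab⟩; exact ⟨b, hab, hb⟩
      · rintro ⟨b, hab, hb⟩; exact ⟨b, hb, hab⟩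
    have ho : IsOpen {a | ∃ b ∈ V, (a, b) ∈ O} := by
      rw [hset]
      exact isOpenMap_fst _ (hO.inter (isOpen_univ.prod hVo))
    have hdense : Dense {a | ∃ b ∈ V, (a, b) ∈ O} := by
      rw [dense_iff_inter_open]
      intro U hU hUne
      obtain ⟨a, ha⟩ := hUne
      obtain ⟨b, hb⟩ := hne
      obtain ⟨⟨a', b'⟩, hx, hx'⟩ := hd.inter_open_nonempty (U ×ˢ V) (hU.prod hVo)
        ⟨(a, b), ha, hb⟩
      exact ⟨a', hx.1, b', hx.2, hx'⟩
    exact residual_of_dense_open ho hdense
  have h2 : ∀ᶠ a in residual α, ∀ V ∈ TopologicalSpace.countableBasis β, V.Nonempty →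
      ∃ b ∈ V, (a, b) ∈ O := by
    rw [eventually_countable_ball (TopologicalSpace.countable_countableBasis β)]
    intro V hV
    by_cases hne : V.Nonempty
    · filter_upwards [h1 V hV hne] with a ha _ using ha
    · exact Eventually.of_forall (fun a h => absurd h hne)
  filter_upwards [h2] with a ha
  apply residual_of_dense_open
  · exact hO.preimage (Continuous.prodMk_right a)
  · rw [(TopologicalSpace.isBasis_countableBasis β).dense_iff]
    intro V hV hne
    obtain ⟨b, hb, hab⟩ := ha V hV hne
    exact ⟨b, hb, hab⟩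

/-- Kuratowski–Ulam, easy direction -/
theorem kuratowski_ulam {α β : Type*} [TopologicalSpace α] [TopologicalSpace β]
    [SecondCountableTopology β] {G : Set (α × β)} (hG : G ∈ residual (α × β)) :
    ∀ᶠ a in residual α, {b | (a, b) ∈ G} ∈ residual β := by
  rw [mem_residual_iff] at hG
  obtain ⟨S, hSo, hSd, hSc, hS⟩ := hG
  have h : ∀ᶠ a in residual α, ∀ O ∈ S, {b | (a, b) ∈ O} ∈ residual β := by
    rw [eventually_countable_ball hSc]
    intro O hO
    exact residual_section_open (hSo O hO) (hSd O hO)
  filter_upwards [h] with a ha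
  have h2 : ∀ᶠ b in residual β, ∀ O ∈ S, (a, b) ∈ O := by
    rw [eventually_countable_ball hSc]
    intro O hO
    exact ha O hO
  filter_upwards [h2] with b hb
  apply hS
  intro O hO
  exact hb O hO

/-- a nonmeager set is everywhere nonmeager in some nonempty open set -/
theorem exists_open_EN {α : Type*} [TopologicalSpace α] [SecondCountableTopology α]
    {S : Set α} (hS : ¬ IsMeagre S) :
    ∃ U, IsOpen U ∧ U.Nonempty ∧ ∀ V, IsOpen V → V ⊆ U → V.Nonempty → ¬ IsMeagre (S ∩ V) := by
  by_contra hcon
  push Not at hcon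
  apply hS
  set B : Set (Set α) := {V ∈ TopologicalSpace.countableBasis α | IsMeagre (S ∩ V)} with hB
  have hBc : B.Countable := (TopologicalSpace.countable_countableBasis α).mono (fun V hV => hV.1)
  set W : Set α := ⋃₀ B with hW
  have hWo : IsOpen W := isOpen_sUnion
    (fun V hV => TopologicalSpace.isOpen_of_mem_countableBasis hV.1)
  have hWd : Dense W := by
    rw [dense_iff_inter_open]
    intro U hU hUne
    obtain ⟨V, hVo, hVU, hVne, hVm⟩ := hcon U hU hUne
    obtain ⟨x, hx⟩ := hVne
    obtain ⟨V', hV', hxV', hV'V⟩ :=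
      (TopologicalSpace.isBasis_countableBasis α).exists_subset_of_mem_open hx hVo
    exact ⟨x, hVU hx, V', ⟨hV', hVm.mono (inter_subset_inter_right _ hV'V)⟩, hxV'⟩
  have h1 : IsMeagre (S ∩ W) := by
    have : S ∩ W = ⋃ V ∈ B, S ∩ V := by
      rw [hW, sUnion_eq_biUnion, inter_iUnion₂]
    rw [this]
    exact isMeagre_biUnion hBc (fun V hV => hV.2)
  have h2 : IsMeagre Wᶜ := by
    unfold IsMeagre
    rw [compl_compl]
    exact residual_of_dense_open hWo hWd
  refine (h1.union h2).mono ?_
  intro x hx
  by_cases hxW : x ∈ W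
  · exact Or.inl ⟨hx, hxW⟩
  · exact Or.inr hxW

/-- A Baire measurable set containing (in `U`) a set that is everywhere nonmeager in `U` is
comeager in `U`. -/
theorem meagre_diff_of_EN {α : Type*} [TopologicalSpace α] {B U S : Set α}
    (hB : BaireMeasurableSet B) (hU : IsOpen U)
    (hS : ∀ V, IsOpen V → V ⊆ U → V.Nonempty → ¬ IsMeagre (S ∩ V)) (hSB : S ∩ U ⊆ B) :
    IsMeagre (U \ B) := by
  obtain ⟨O, hO, hOe⟩ := (hU.baireMeasurableSet.diff hB).residualEq_isOpen
  have hev : ∀ᶠ x in residual α, (x ∈ U \ B ↔ x ∈ O) := by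
    filter_upwards [hOe] with x hx
    exact iff_of_eq hx
  by_cases hne : (O ∩ U).Nonempty
  · exfalso
    apply hS (O ∩ U) (hO.inter hU) inter_subset_right hne
    show (S ∩ (O ∩ U))ᶜ ∈ residual α
    filter_upwards [hev] with x hx
    rintro ⟨hxS, hxO, hxU⟩
    exact (hx.2 hxO).2 (hSB ⟨hxS, hxU⟩)
  · show (U \ B)ᶜ ∈ residual α
    filter_upwards [hev] with x hx hxUB
    exact hne ⟨x, hx.1 hxUB, hxUB.1⟩

/-- the sequence `x, w 0, w 1, …` -/
def consSeq (x : Om) (w : ℕ → Om) : ℕ → Om
  | 0 => x
  | n + 1 => w n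

/-- prepending a coordinate is a homeomorphism -/
def consHomeo : Om × (ℕ → Om) ≃ₜ (ℕ → Om) where
  toFun p := consSeq p.1 p.2
  invFun w := (w 0, fun n => w (n + 1))
  left_inv p := rfl
  right_inv w := by
    funext n
    cases n <;> rfl
  continuous_toFun := by
    apply continuous_pi
    intro n
    cases n with
    | zero => exact continuous_fst
    | succ n => exact (continuous_apply n).comp continuous_snd
  continuous_invFun := by
    apply Continuous.prodMk
    · exact continuous_apply 0
    · apply continuous_pi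
      intro n
      exact continuous_apply (n + 1)

/-- choosing finitely many coordinates in everywhere nonmeager sets, inside a comeager set -/
theorem exists_mem_of_EN (A : ℕ → Set Om) (hA : ∀ i, EN (A i)) (U : ℕ → Set Om)
    (hU : ∀ i, IsOpen (U i) ∧ (U i).Nonempty) (G : Set (ℕ → Om)) (hG : G ∈ residual (ℕ → Om))
    (N : ℕ) : ∃ w ∈ G, ∀ i < N, w i ∈ A i ∩ U i := by
  induction N generalizing A U G with
  | zero =>
    obtain ⟨w, hw⟩ := (dense_of_mem_residual hG).nonempty
    exact ⟨w, hw, fun i hi => absurd hi (Nat.not_lt_zero i)⟩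
  | succ N ih =>
    have h1 : consHomeo ⁻¹' G ∈ residual (Om × (ℕ → Om)) :=
      tendsto_residual_of_isOpenMap consHomeo.continuous consHomeo.isOpenMap hG
    have h2 := kuratowski_ulam h1
    obtain ⟨x, hx, hxA⟩ : ∃ x, {w | (x, w) ∈ consHomeo ⁻¹' G} ∈ residual (ℕ → Om) ∧
        x ∈ A 0 ∩ U 0 := by
      by_contra hcon
      push Not at hcon
      apply hA 0 (U 0) (hU 0).1 (hU 0).2
      show (A 0 ∩ U 0)ᶜ ∈ residual Om
      filter_upwards [h2] with x hx
      exact hcon x hx
    obtain ⟨w, hw, hwA⟩ := ih (fun i => A (i + 1)) (fun i => hA (i + 1)) (fun i => U (i + 1))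
      (fun i => hU (i + 1)) _ hx
    refine ⟨consSeq x w, hw, ?_⟩
    intro i hi
    cases i with
    | zero => exact hxA
    | succ i => exact hwA i (by omega)

/-- an open set of reals containing `x` contains a cylinder around `x` -/
theorem cat_exists_cyl {U : Set Om} (hU : IsOpen U) {x : Om} (hx : x ∈ U) :
    ∃ M, ∀ y : Om, (∀ i < M, y i = x i) → y ∈ U := by
  rw [isOpen_pi_iff] at hU
  obtain ⟨I, u, hu, hsub⟩ := hU x hx
  refine ⟨I.sup id + 1, fun y hy => hsub ?_⟩
  intro i hi
  rw [hy i (Nat.lt_succ_of_le (Finset.le_sup (f := id) hi))]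
  exact (hu i hi).2

/-- A measurable map is continuous on a comeager set. -/
theorem measurable_cont (g : Om → Om) (hg : Measurable g) :
    ∃ C ∈ residual Om, ∀ x ∈ C, ∀ n, ∃ M, ∀ y ∈ C, (∀ i < M, y i = x i) → g y n = g x n := by
  have hB : ∀ (n : ℕ) (v : Bool), ∃ u : Set Om, IsOpen u ∧
      {x | g x n = v} =ᶠ[residual Om] u := by
    intro n v
    have hm : MeasurableSet {x | g x n = v} :=
      (measurable_pi_iff.1 hg n) (measurableSet_singleton v)
    exact hm.residualEq_isOpen
  choose u hu hue using hB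
  refine ⟨{x | ∀ (n : ℕ) (v : Bool), g x n = v ↔ x ∈ u n v}, ?_, ?_⟩
  · show ∀ᶠ x in residual Om, ∀ (n : ℕ) (v : Bool), (g x n = v ↔ x ∈ u n v)
    rw [eventually_countable_forall]
    intro n
    rw [eventually_countable_forall]
    intro v
    filter_upwards [hue n v] with x hx
    exact iff_of_eq hx
  · intro x hx n
    have h1 : x ∈ u n (g x n) := (hx n (g x n)).1 rfl
    obtain ⟨M, hM⟩ := cat_exists_cyl (hu n (g x n)) h1
    exact ⟨M, fun y hy hyx => (hy n (g x n)).2 (hM y hyx)⟩

end Crest.Agent.R292
end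

-- ▼ part R292/Cat2
section

/-!
# R292: open maps and comeager sets
-/

set_option autoImplicit false

namespace Crest.Agent.R292

open Topology Set Filter

/-- The maps used to pull back the generic relations. -/
theorem open_pair (c1 c2 : Om → Om) (h1 : Continuous c1) (h2 : Continuous c2) (j : ℕ)
    (hj : 2 ≤ j) :
    Continuous (fun w : ℕ → Om => (add (w 0) (c1 (w 1)), add (w j) (c2 (w 1)))) ∧
    IsOpenMap (fun w : ℕ → Om => (add (w 0) (c1 (w 1)), add (w j) (c2 (w 1)))) := by
  have hp : ∀ i : ℕ, Continuous (fun w : ℕ → Om => w i) := fun i => continuous_apply i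
  constructor
  · exact (continuous_add.comp ((hp 0).prodMk (h1.comp (hp 1)))).prodMk
      (continuous_add.comp ((hp j).prodMk (h2.comp (hp 1))))
  · refine IsOpenMap.of_sections fun w => ?_
    refine ⟨fun p => Function.update (Function.update w 0 (add p.1 (c1 (w 1)))) j
      (add p.2 (c2 (w 1))), ?_, ?_, ?_⟩
    · refine Continuous.continuousAt ?_
      refine Continuous.update (Continuous.update continuous_const 0 ?_) j ?_
      · exact continuous_add.comp (continuous_fst.prodMk continuous_const)
      · exact continuous_add.comp (continuous_snd.prodMk continuous_const)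
    · funext i
      show Function.update (Function.update w 0 (add (add (w 0) (c1 (w 1))) (c1 (w 1)))) j
        (add (add (w j) (c2 (w 1))) (c2 (w 1))) i = w i
      by_cases hij : i = j
      · subst hij
        simp only [Function.update_self]
        rw [add_assoc, add_self, add_zero]
      · rw [Function.update_of_ne hij]
        by_cases hi0 : i = 0
        · subst hi0
          simp only [Function.update_self]
          rw [add_assoc, add_self, add_zero]
        · rw [Function.update_of_ne hi0]
    · intro p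
      have h1j : (1 : ℕ) ≠ j := by omega
      have h0j : (0 : ℕ) ≠ j := by omega
      have e1 : Function.update (Function.update w 0 (add p.1 (c1 (w 1)))) j
          (add p.2 (c2 (w 1))) 1 = w 1 := by
        rw [Function.update_of_ne h1j, Function.update_of_ne (by omega)]
      have e0 : Function.update (Function.update w 0 (add p.1 (c1 (w 1)))) j
          (add p.2 (c2 (w 1))) 0 = add p.1 (c1 (w 1)) := by
        rw [Function.update_of_ne h0j, Function.update_self]
      show (add (Function.update (Function.update w 0 (add p.1 (c1 (w 1)))) j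
          (add p.2 (c2 (w 1))) 0) (c1 (Function.update (Function.update w 0
            (add p.1 (c1 (w 1)))) j (add p.2 (c2 (w 1))) 1)),
          add (Function.update (Function.update w 0 (add p.1 (c1 (w 1)))) j
          (add p.2 (c2 (w 1))) j) (c2 (Function.update (Function.update w 0
            (add p.1 (c1 (w 1)))) j (add p.2 (c2 (w 1))) 1))) = p
      rw [e0, e1, Function.update_self, add_assoc, add_self, add_zero, add_assoc, add_self,
        add_zero]

/-- pulling back an eventual property of the residual filter along a continuous open map -/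
theorem residual_pull {α β : Type*} [TopologicalSpace α] [TopologicalSpace β] {f : α → β}
    (hc : Continuous f) (ho : IsOpenMap f) {P : β → Prop} (h : ∀ᶠ b in residual β, P b) :
    ∀ᶠ a in residual α, P (f a) :=
  (tendsto_residual_of_isOpenMap hc ho).eventually h

/-- change of coordinates `(Y, γ, W…) ↦ (Y, Y + γ, W…)` -/
theorem residual_coord {P : (ℕ → Om) → Prop}
    (h : ∀ᶠ w in residual (ℕ → Om), P (fun i => if i = 1 then add (w 0) (w 1) else w i)) :
    ∀ᶠ w in residual (ℕ → Om), P w := by
  have hc : Continuous (fun (w : ℕ → Om) (i : ℕ) => if i = 1 then add (w 0) (w 1) else w i) := by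
    have hp : ∀ i : ℕ, Continuous (fun w : ℕ → Om => w i) := fun i => continuous_apply i
    refine continuous_pi fun i => ?_
    by_cases hi : i = 1
    · simp only [hi, if_true]
      exact continuous_add.comp ((hp 0).prodMk (hp 1))
    · simp only [hi, if_false]
      exact hp i
  have hinv : ∀ w : ℕ → Om, (fun (i : ℕ) => if i = 1 then
      add ((fun (i : ℕ) => if i = 1 then add (w 0) (w 1) else w i) 0)
        ((fun (i : ℕ) => if i = 1 then add (w 0) (w 1) else w i) 1) else
      (fun (i : ℕ) => if i = 1 then add (w 0) (w 1) else w i) i) = w := by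
    intro w
    funext i
    by_cases hi : i = 1
    · subst hi
      simp only [if_true]
      simp only [show (0 : ℕ) ≠ 1 by omega, if_false]
      exact add_add_cancel _ _
    · simp only [hi, if_false]
  have ho : IsOpenMap (fun (w : ℕ → Om) (i : ℕ) => if i = 1 then add (w 0) (w 1) else w i) := by
    refine IsOpenMap.of_sections fun w => ⟨_, hc.continuousAt, hinv w, fun v => hinv v⟩
  have := residual_pull hc ho h
  filter_upwards [this] with w hw
  have e := hinv w
  rw [← e]
  exact hw

/-- flattening is a homeomorphism -/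
theorem residual_flat {P : Om → Prop} (h : ∀ᶠ H in residual Om, P H) :
    ∀ᶠ w in residual (ℕ → Om), P (flat w) := by
  have hc : Continuous flat := by
    refine continuous_pi fun m => ?_
    exact (continuous_apply (Nat.unpair m).2).comp (continuous_apply (Nat.unpair m).1)
  have ho : IsOpenMap flat := by
    refine IsOpenMap.of_sections fun w => ⟨fun A i => col A i, ?_, ?_, ?_⟩
    · refine Continuous.continuousAt ?_
      refine continuous_pi fun i => continuous_pi fun n => ?_
      exact continuous_apply (Nat.pair i n)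
    · funext i
      exact col_flat w i
    · intro A
      funext m
      show A (Nat.pair (Nat.unpair m).1 (Nat.unpair m).2) = A m
      rw [Nat.pair_unpair]
  exact residual_pull hc ho h

/-- preimages of comeager sets under `(T, W) ↦ c(T) + W`, `c` continuous. -/
theorem residual_shear {P : Om → Prop} (h : ∀ᶠ H in residual Om, P H) (c : Om → Om)
    (hc : Continuous c) : ∀ᶠ p in residual (Om × Om), P (add (c p.1) p.2) := by
  have hc' : Continuous (fun p : Om × Om => add (c p.1) p.2) :=
    continuous_add.comp ((hc.comp continuous_fst).prodMk continuous_snd)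
  have ho : IsOpenMap (fun p : Om × Om => add (c p.1) p.2) := by
    refine IsOpenMap.of_sections fun p => ⟨fun y => (p.1, add (c p.1) y), ?_, ?_, ?_⟩
    · exact (continuous_const.prodMk
        (continuous_add.comp (continuous_const.prodMk continuous_id))).continuousAt
    · exact Prod.ext rfl (add_add_cancel _ _)
    · intro y
      exact add_add_cancel _ _
  exact residual_pull hc' ho h

theorem residual_fst {P : Om → Prop} (h : ∀ᶠ H in residual Om, P H) :
    ∀ᶠ p in residual (Om × Om), P p.1 :=
  residual_pull continuous_fst isOpenMap_fst h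

theorem residual_snd {P : Om → Prop} (h : ∀ᶠ H in residual Om, P H) :
    ∀ᶠ p in residual (Om × Om), P p.2 :=
  residual_pull continuous_snd isOpenMap_snd h

/-- every open neighbourhood of a real contains a cylinder -/
theorem cat2_exists_cyl {V : Set Om} (hV : IsOpen V) {a : Om} (ha : a ∈ V) :
    ∃ m : ℕ, ∀ b : Om, (∀ i < m, b i = a i) → b ∈ V := by
  rw [isOpen_pi_iff] at hV
  obtain ⟨I, u, hu, hsub⟩ := hV a ha
  refine ⟨I.sup id + 1, fun b hb => hsub ?_⟩
  intro i hi
  have hi' : i ≤ I.sup id := Finset.le_sup (f := id) hi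
  rw [hb i (by omega)]
  exact (hu i hi).2

/-- every nonempty open subset of `Om × Om` contains a product of two cylinders of the same
length `m`. -/
theorem exists_cylinder {U : Set (Om × Om)} (hU : IsOpen U) (hne : U.Nonempty) :
    ∃ (t0 w0 : Om) (m : ℕ), ∀ T W : Om, (add (tn m t0) (shn m T), add (tn m w0) (shn m W)) ∈ U := by
  obtain ⟨⟨a, b⟩, hab⟩ := hne
  rw [isOpen_prod_iff] at hU
  obtain ⟨V, V', hV, hV', ha, hb, hsub⟩ := hU a b hab
  obtain ⟨m, hm⟩ := cat2_exists_cyl hV ha
  obtain ⟨m', hm'⟩ := cat2_exists_cyl hV' hb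
  refine ⟨a, b, max m m', fun T W => hsub ⟨hm _ ?_, hm' _ ?_⟩⟩
  · intro i hi
    have : i < max m m' := lt_of_lt_of_le hi (le_max_left _ _)
    simp [add, tn, shn, this]
  · intro i hi
    have : i < max m m' := lt_of_lt_of_le hi (le_max_right _ _)
    simp [add, tn, shn, this]

end Crest.Agent.R292
end

-- ▼ part R292/Generic
section

/-!
# R292: genericity lemmas and measurability of the functionals
-/

set_option autoImplicit false

namespace Crest.Agent.R292

open Encodable Topology Set Filter
open Nat.Partrec (Code)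

/-- `{b | Tr b D}` is open (clopen). -/
theorem isOpen_Tr (D : Facts) : IsOpen {b : Om | Tr b D} := by
  induction D with
  | nil =>
    have : {b : Om | Tr b []} = Set.univ := by
      ext b; simp [Tr]
    rw [this]; exact isOpen_univ
  | cons f D ih =>
    have : {b : Om | Tr b (f :: D)} = {b : Om | b f.1 = f.2} ∩ {b : Om | Tr b D} := by
      ext b; simp [Tr]
    rw [this]
    refine IsOpen.inter ?_ ih
    have hc : Continuous (fun b : Om => b f.1) := continuous_apply f.1
    exact (isOpen_discrete ({f.2} : Set Bool)).preimage hc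

theorem isOpen_exHit (c : Code) (n : ℕ) (v : Bool) :
    IsOpen {b : Om | ∃ D, Tr b D ∧ Hit c D n v} := by
  have : {b : Om | ∃ D, Tr b D ∧ Hit c D n v} =
      ⋃ D : Facts, ⋃ _ : Hit c D n v, {b : Om | Tr b D} := by
    ext b; simp [and_comm]
  rw [this]
  exact isOpen_iUnion fun D => isOpen_iUnion fun _ => isOpen_Tr D

theorem measurable_Ft (c : Code) : Measurable (Ft c) := by
  refine measurable_pi_iff.2 fun n => ?_
  refine measurable_to_bool ?_
  have : (fun b => Ft c b n) ⁻¹' {true} = {b : Om | ∃ D, Tr b D ∧ Hit c D n true} := by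
    ext b; simp [Ft]
  rw [this]
  exact (isOpen_exHit c n true).measurableSet

theorem measurableSet_Red (c : Code) : MeasurableSet {p : Om × Om | Red c p.1 p.2} := by
  have : {p : Om × Om | Red c p.1 p.2} =
      ⋂ n : ℕ, ⋂ v : Bool, {p : Om × Om | p.2 n = v ↔ ∃ D, Tr p.1 D ∧ Hit c D n v} := by
    ext p; simp [Red]
  rw [this]
  refine MeasurableSet.iInter fun n => MeasurableSet.iInter fun v => ?_
  have h1 : MeasurableSet {p : Om × Om | p.2 n = v} := by
    have : Measurable (fun p : Om × Om => p.2 n) := (measurable_pi_apply n).comp measurable_snd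
    exact this (measurableSet_singleton v)
  have h2 : MeasurableSet {p : Om × Om | ∃ D, Tr p.1 D ∧ Hit c D n v} :=
    measurable_fst (isOpen_exHit c n v).measurableSet
  have : {p : Om × Om | p.2 n = v ↔ ∃ D, Tr p.1 D ∧ Hit c D n v} =
      ({p : Om × Om | p.2 n = v} ∩ {p : Om × Om | ∃ D, Tr p.1 D ∧ Hit c D n v}) ∪
      ({p : Om × Om | p.2 n = v}ᶜ ∩ {p : Om × Om | ∃ D, Tr p.1 D ∧ Hit c D n v}ᶜ) := by
    ext p
    exact iff_iff_and_or_not_and_not
  rw [this]
  exact (h1.inter h2).union (h1.compl.inter h2.compl)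

theorem measurableSet_TR (Q : Om) : MeasurableSet {Z : Om | TR Q Z} := by
  have : {Z : Om | TR Q Z} = ⋃ c : Code, {Z : Om | Red c Z Q} := by
    ext Z; simp [TR_iff_Red]
  rw [this]
  refine MeasurableSet.iUnion fun c => ?_
  have hm : Measurable (fun Z : Om => (Z, Q)) := measurable_id.prodMk measurable_const
  exact hm (measurableSet_Red c)

theorem measurable_join : Measurable (fun p : Om × Om => join p.1 p.2) := by
  refine measurable_pi_iff.2 fun n => ?_
  by_cases h : n % 2 = 0
  · have : (fun p : Om × Om => join p.1 p.2 n) = fun p : Om × Om => p.1 (n / 2) := by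
      funext p; simp [join, h]
    rw [this]
    exact (measurable_pi_apply _).comp measurable_fst
  · have : (fun p : Om × Om => join p.1 p.2 n) = fun p : Om × Om => p.2 (n / 2) := by
      funext p; simp [join, h]
    rw [this]
    exact (measurable_pi_apply _).comp measurable_snd

/-- A set that is not nowhere dense is dense in some cylinder. -/
theorem exists_cyl_nwd {S : Set Om} (h : ¬ IsNowhereDense S) :
    ∃ (R0 : Om) (m : ℕ), ∀ (R : Om) (M : ℕ), (∀ i < m, R i = R0 i) →
      ∃ R' ∈ S, ∀ i < M, R' i = R i := by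
  unfold IsNowhereDense at h
  rw [← Ne, ← Set.nonempty_iff_ne_empty] at h
  obtain ⟨R0, hR0⟩ := h
  obtain ⟨V, ⟨x, m, rfl⟩, hxV, hVS⟩ :=
    (PiNat.isTopologicalBasis_cylinders (fun _ : ℕ => Bool)).exists_subset_of_mem_open hR0
      isOpen_interior
  refine ⟨x, m, fun R M hR => ?_⟩
  have hRx : R ∈ PiNat.cylinder (E := fun _ : ℕ => Bool) x m := PiNat.mem_cylinder_iff.2 hR
  have hRc : R ∈ closure S := interior_subset (hVS hRx)
  obtain ⟨R', hR'1, hR'2⟩ := mem_closure_iff.1 hRc (PiNat.cylinder (E := fun _ : ℕ => Bool) R M)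
    (PiNat.isOpen_cylinder _ R M) (PiNat.self_mem_cylinder R M)
  exact ⟨R', hR'2, PiNat.mem_cylinder_iff.1 hR'1⟩

/-- bound for the positions mentioned by a list of facts -/
theorem exists_bound (E : Facts) : ∃ M, ∀ f ∈ E, f.1 < M := by
  induction E with
  | nil => exact ⟨0, by simp⟩
  | cons f E ih =>
    obtain ⟨M, hM⟩ := ih
    refine ⟨max M (f.1 + 1), fun g hg => ?_⟩
    rcases List.mem_cons.1 hg with rfl | hg
    · omega
    · have := hM g hg; omega

/-- the r.e. predicate used in `TR_of_dense` -/
theorem re_dense (c : Code) (σ : List Bool) :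
    REPred (fun x : Facts × ℕ × Bool => ∃ y : Facts × List Bool,
      Hit c y.1 x.2.1 x.2.2 ∧ ∀ f ∈ y.1,
        ((f.1 % 2 = 0 ∧ ∃ i : ℕ, x.1[i]? = some (f.1 / 2, f.2)) ∨
          (f.1 % 2 = 1 ∧ (σ ++ y.2)[f.1 / 2]? = some f.2))) := by
  refine re_ex (p := fun z : (Facts × ℕ × Bool) × (Facts × List Bool) =>
      Hit c z.2.1 z.1.2.1 z.1.2.2 ∧ ∀ f ∈ z.2.1,
        ((f.1 % 2 = 0 ∧ ∃ i : ℕ, z.1.1[i]? = some (f.1 / 2, f.2)) ∨
          (f.1 % 2 = 1 ∧ (σ ++ z.2.2)[f.1 / 2]? = some f.2))) ?_
  refine re_and ?_ ?_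
  · have hf : Computable (fun z : (Facts × ℕ × Bool) × (Facts × List Bool) =>
        ((c, z.2.1, z.1.2.1, z.1.2.2) : Code × Facts × ℕ × Bool)) := by
      refine Primrec.to_comp ?_
      refine (Primrec.const c).pair ?_
      refine (Primrec.fst.comp Primrec.snd).pair ?_
      exact ((Primrec.fst.comp (Primrec.snd.comp Primrec.fst))).pair
        (Primrec.snd.comp (Primrec.snd.comp Primrec.fst))
    exact re_comp re_hit hf
  · refine re_all_mem (p := fun w : ((Facts × ℕ × Bool) × (Facts × List Bool)) × (ℕ × Bool) =>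
        ((w.2.1 % 2 = 0 ∧ ∃ i : ℕ, w.1.1.1[i]? = some (w.2.1 / 2, w.2.2)) ∨
          (w.2.1 % 2 = 1 ∧ (σ ++ w.1.2.2)[w.2.1 / 2]? = some w.2.2)))
        (L := fun z => z.2.1) ?_ (Primrec.fst.comp Primrec.snd).to_comp
    have h2 : Primrec (fun w : ((Facts × ℕ × Bool) × (Facts × List Bool)) × (ℕ × Bool) =>
        w.2.1 / 2) := Primrec.nat_div.comp (Primrec.fst.comp Primrec.snd) (Primrec.const 2)
    have hm : Primrec (fun w : ((Facts × ℕ × Bool) × (Facts × List Bool)) × (ℕ × Bool) =>
        w.2.1 % 2) := Primrec.nat_mod.comp (Primrec.fst.comp Primrec.snd) (Primrec.const 2)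
    refine re_or (re_and ?_ ?_) (re_and ?_ ?_)
    · exact (PrimrecPred.computablePred (Primrec.eq.comp hm (Primrec.const 0))).to_re
    · refine re_ex (p := fun u : (((Facts × ℕ × Bool) × (Facts × List Bool)) × (ℕ × Bool)) × ℕ =>
        u.1.1.1.1[u.2]? = some (u.1.2.1 / 2, u.1.2.2)) ?_
      refine (PrimrecPred.computablePred (Primrec.eq.comp ?_ ?_)).to_re
      · exact Primrec.list_getElem?.comp
          (Primrec.fst.comp (Primrec.fst.comp (Primrec.fst.comp Primrec.fst))) Primrec.snd
      · exact Primrec.option_some.comp ((h2.comp Primrec.fst).pair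
          (Primrec.snd.comp (Primrec.snd.comp Primrec.fst)))
    · exact (PrimrecPred.computablePred (Primrec.eq.comp hm (Primrec.const 1))).to_re
    · refine (PrimrecPred.computablePred (Primrec.eq.comp ?_ ?_)).to_re
      · refine Primrec.list_getElem?.comp ?_ h2
        exact Primrec.list_append.comp (Primrec.const σ)
          (Primrec.snd.comp (Primrec.snd.comp Primrec.fst))
      · exact Primrec.option_some.comp (Primrec.snd.comp Primrec.snd)

/-- If the set of `R` with `Red c (join P R) Q` is not nowhere dense then `Q ≤_T P`.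
`Q n = v` iff there are `τ : List Bool` and `E` with `Hit c E n v`, the even facts `(2j, w)` of `E`
true of `P` and the odd facts `(2j+1, w)` of `E` true of the string `σ ++ τ`, where `[σ]` is a
cylinder in which `{R | Red c (join P R) Q}` is dense. -/
theorem TR_of_dense {P Q : Om} {c : Code}
    (h : ¬ IsNowhereDense {R : Om | Red c (join P R) Q}) : TR Q P := by
  obtain ⟨R0, m, hd⟩ := exists_cyl_nwd h
  set σ : List Bool := (List.range m).map R0 with hσ
  obtain ⟨c', hc'⟩ := hit_code (p := fun D n v => ∃ y : Facts × List Bool,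
      Hit c y.1 n v ∧ ∀ f ∈ y.1,
        ((f.1 % 2 = 0 ∧ ∃ i : ℕ, D[i]? = some (f.1 / 2, f.2)) ∨
          (f.1 % 2 = 1 ∧ (σ ++ y.2)[f.1 / 2]? = some f.2))) (re_dense c σ)
  refine TR_of_Red (c := c') fun n v => ?_
  constructor
  · intro hQ
    obtain ⟨R, hR, hRm⟩ := hd R0 m (fun _ _ => rfl)
    obtain ⟨E, hE, hhit⟩ := (hR n v).1 hQ
    obtain ⟨M, hM⟩ := exists_bound E
    refine ⟨(E.filter (fun f => f.1 % 2 = 0)).map (fun f => (f.1 / 2, f.2)), ?_, ?_⟩
    · intro g hg
      obtain ⟨f, hf, rfl⟩ := List.mem_map.1 hg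
      obtain ⟨hf1, hf2⟩ := List.mem_filter.1 hf
      have h1 := hE f hf1
      have h2 : f.1 % 2 = 0 := by simpa using hf2
      simpa [join, h2] using h1
    · refine (hc' _ _ _).2 ⟨(E, (List.range M).map (fun i => R (m + i))), hhit, ?_⟩
      intro f hf
      have hfE := hE f hf
      rcases Nat.mod_two_eq_zero_or_one f.1 with h2 | h2
      · left
        refine ⟨h2, ?_⟩
        have hmem : (f.1 / 2, f.2) ∈
            (E.filter (fun f => f.1 % 2 = 0)).map (fun f => (f.1 / 2, f.2)) :=
          List.mem_map.2 ⟨f, List.mem_filter.2 ⟨hf, by simpa using h2⟩, rfl⟩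
        exact List.mem_iff_getElem?.1 hmem
      · right
        refine ⟨h2, ?_⟩
        have h3 : R (f.1 / 2) = f.2 := by
          have : ¬ f.1 % 2 = 0 := by omega
          simpa [join, this] using hfE
        have hlt : f.1 / 2 < M := by have := hM f hf; omega
        rw [← h3]
        by_cases hlm : f.1 / 2 < m
        · rw [List.getElem?_append_left (by simpa [hσ] using hlm)]
          simp [hσ, hlm, hRm _ hlm]
        · rw [List.getElem?_append_right (by simpa [hσ] using hlm)]
          have e1 : f.1 / 2 - σ.length < M := by simp [hσ]; omega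
          have e2 : m + (f.1 / 2 - m) = f.1 / 2 := by omega
          simp only [List.getElem?_map, List.getElem?_range e1, Option.map_some]
          simp [hσ, e2]
  · rintro ⟨D, hD, hhit⟩
    obtain ⟨⟨E, τ⟩, hE, hfE⟩ := (hc' _ _ _).1 hhit
    simp only at hE hfE
    obtain ⟨R', hR', hag⟩ := hd (fun j => (σ ++ τ).getD j false) (σ ++ τ).length (by
      intro i hi
      simp [hσ, List.getD_eq_getElem?_getD, List.getElem?_append_left, hi])
    refine (hR' n v).2 ⟨E, ?_, hE⟩
    intro f hf
    rcases hfE f hf with ⟨h0, i, hi⟩ | ⟨h1, hi⟩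
    · have : (f.1 / 2, f.2) ∈ D := List.mem_iff_getElem?.2 ⟨i, hi⟩
      have := hD _ this
      simpa [join, h0] using this
    · have hlt : f.1 / 2 < (σ ++ τ).length := by
        by_contra hcon
        rw [List.getElem?_eq_none (by omega)] at hi
        simp at hi
      have h3 := hag _ hlt
      have h4 : (σ ++ τ).getD (f.1 / 2) false = f.2 := by
        rw [List.getD_eq_getElem?_getD, hi]; rfl
      have : ¬ f.1 % 2 = 0 := by omega
      simp only [join, this, if_false]
      rw [h3, h4]

theorem isMeagre_iUnion_nd {ι : Type*} [Countable ι] {S : ι → Set Om}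
    (h : ∀ i, IsNowhereDense (S i)) : IsMeagre (⋃ i, S i) :=
  isMeagre_iUnion fun i => (h i).isMeagre

theorem generic_not_TR {P Q : Om} (h : ¬ TR Q P) : ∀ᶠ R in residual Om, ¬ TR Q (join P R) := by
  have : IsMeagre (⋃ c : Code, {R : Om | Red c (join P R) Q}) := by
    refine isMeagre_iUnion_nd fun c => ?_
    by_contra hc
    exact h (TR_of_dense hc)
  have h2 : (⋃ c : Code, {R : Om | Red c (join P R) Q})ᶜ ∈ residual Om := this
  filter_upwards [h2] with R hR hTR
  obtain ⟨c, hc⟩ := TR_iff_Red.1 hTR
  exact hR (mem_iUnion.2 ⟨c, hc⟩)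

/-- `{A | Red c (del A i) (col A i)}` is nowhere dense (flip one bit of column `i`). -/
theorem nowhereDense_col (c : Code) (i : ℕ) :
    IsNowhereDense {A : Om | Red c (del A i) (col A i)} := by
  by_contra h
  obtain ⟨R0, m, hd⟩ := exists_cyl_nwd h
  obtain ⟨A, hA, hAm⟩ := hd R0 m (fun _ _ => rfl)
  have hA' : Red c (del A i) (col A i) := hA
  obtain ⟨E, hE, hhit⟩ := (hA' m (col A i m)).1 rfl
  obtain ⟨M, hM⟩ := exists_bound E
  have hmle : m ≤ Nat.pair i m := Nat.right_le_pair i m
  obtain ⟨A2, hA2, hag⟩ := hd (Function.update A (Nat.pair i m) (!(A (Nat.pair i m))))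
    (max M (Nat.pair i m + 1)) (by
      intro j hj
      rw [Function.update_of_ne (by omega), hAm j hj])
  have hA2' : Red c (del A2 i) (col A2 i) := hA2
  have h1 : Tr (del A2 i) E := by
    intro f hf
    have h2 := hE f hf
    have h3 := hM f hf
    rw [← h2]
    unfold del
    by_cases h4 : (Nat.unpair f.1).1 = i
    · simp [h4]
    · have h5 := hag f.1 (by omega)
      have h6 : f.1 ≠ Nat.pair i m := by
        rintro h6; apply h4; rw [h6]; simp
      rw [Function.update_of_ne h6] at h5
      simp [h4, h5]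
  have h7 : col A2 i m = col A i m := (hA2' m _).2 ⟨E, h1, hhit⟩
  have h8 := hag (Nat.pair i m) (by omega)
  rw [Function.update_self] at h8
  unfold col at h7
  rw [h7] at h8
  simp at h8

theorem exists_indep : ∃ A : Om, ∀ i, ¬ TR (col A i) (del A i) := by
  have h : IsMeagre (⋃ x : Code × ℕ, {A : Om | Red x.1 (del A x.2) (col A x.2)}) :=
    isMeagre_iUnion_nd fun x => nowhereDense_col x.1 x.2
  have h2 : (⋃ x : Code × ℕ, {A : Om | Red x.1 (del A x.2) (col A x.2)})ᶜ ∈ residual Om := h
  obtain ⟨A, hA⟩ := (dense_of_mem_residual h2).nonempty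
  refine ⟨A, fun i hi => ?_⟩
  obtain ⟨c, hc⟩ := TR_iff_Red.1 hi
  exact hA (mem_iUnion.2 ⟨(c, i), hc⟩)

end Crest.Agent.R292
end

-- ▼ part R292/Deg
section

/-!
# R292: the degree structure
-/

set_option autoImplicit false

namespace Crest.Agent.R292

open Crest.LogicCS.Degrees

theorem chi_eq_charFun (a : Om) : charFun {n | a n = true} = chi a := by
  funext n
  unfold charFun chi
  congr 1
  by_cases h : a n = true
  · simp [Set.indicator, h]
  · simp [Set.indicator, h]

theorem dg_le_iff (a b : Om) : dg a ≤ dg b ↔ TR a b := by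
  have h : dg a ≤ dg b ↔
      TuringReducible (charFun {n | a n = true}) (charFun {n | b n = true}) := Iff.rfl
  rw [h, chi_eq_charFun, chi_eq_charFun]
  exact Iff.rfl

theorem dg_surj (d : SetDegree) : ∃ a, dg a = d := by
  classical
  obtain ⟨d, A, rfl⟩ := d
  refine ⟨fun n => decide (n ∈ A), ?_⟩
  unfold dg
  apply Subtype.ext
  change degOf _ = degOf A
  congr 1
  ext n
  simp

theorem dg_eq_of {a b : Om} (h : TR a b) (h' : TR b a) : dg a = dg b :=
  le_antisymm ((dg_le_iff a b).2 h) ((dg_le_iff b a).2 h')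

/-- join-preservation in the form used: if `a ≤_T b ⊕ d`, then any representatives of the
images satisfy the same relation. -/
theorem TR_image (π : SetDegree ≃o SetDegree) {a b d a' b' d' : Om} (h : TR a (join b d))
    (ha : dg a' = π (dg a)) (hb : dg b' = π (dg b)) (hd : dg d' = π (dg d)) :
    TR a' (join b' d') := by
  rw [← dg_le_iff, ha]
  -- the join of `b'` and `d'` is `π` of something
  obtain ⟨e, he⟩ := dg_surj (π.symm (dg (join b' d')))
  have he' : π (dg e) = dg (join b' d') := by rw [he]; simp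
  rw [← he']
  refine π.monotone ?_
  refine le_trans ((dg_le_iff _ _).2 h) ?_
  rw [dg_le_iff]
  refine TR_join ?_ ?_
  · rw [← dg_le_iff, ← π.le_iff_le, he', ← hb, dg_le_iff]
    exact TR_left _ _
  · rw [← dg_le_iff, ← π.le_iff_le, he', ← hd, dg_le_iff]
    exact TR_right _ _

theorem TR_image1 (π : SetDegree ≃o SetDegree) {a b a' b' : Om}
    (ha : dg a' = π (dg a)) (hb : dg b' = π (dg b)) : TR a' b' ↔ TR a b := by
  rw [← dg_le_iff, ha, hb, π.le_iff_le, dg_le_iff]

theorem TR_image3 (π : SetDegree ≃o SetDegree) {a b d e a' b' d' e' : Om}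
    (h : TR a (join b (join d e)))
    (ha : dg a' = π (dg a)) (hb : dg b' = π (dg b)) (hd : dg d' = π (dg d))
    (he : dg e' = π (dg e)) : TR a' (join b' (join d' e')) := by
  obtain ⟨k, hk⟩ := dg_surj (π (dg (join d e)))
  have h1 : TR a' (join b' k) := TR_image π h ha hb hk
  have h2 : TR k (join d' e') := TR_image π (TR.refl _) hk hd he
  exact h1.trans (TR_join_mono (TR.refl _) h2)

theorem dg_symm {π : SetDegree ≃o SetDegree} {a a' : Om} (h : dg a' = π (dg a)) :
    dg a = π.symm (dg a') := by
  rw [h]; simp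

end Crest.Agent.R292
end

-- ▼ part R292/Coding
section

/-!
# R292: the Borel bound
-/

set_option autoImplicit false

namespace Crest.Agent.R292

open Encodable Topology Set Filter
open Nat.Partrec (Code)
open Crest.LogicCS.Degrees

/-- Coding lemma. `A` has independent columns and `Y` does not help to compute column `i` from the
others.  Then for any automorphism `ρ`, `Y` is recovered from any `R` with `dg R = ρ (dg Y)`:
put `B = keep Y A ≤_T Y ⊕ A`; `Y i ↔ TR (col A i) B`; take `B'` with `dg B' = ρ (dg B)`,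
`B' ≤_T R ⊕ C`, so `Red c (join R C) B'` for some `c`. -/
theorem coding (ρ : SetDegree ≃o SetDegree) {A Y R C : Om} {A' : ℕ → Om}
    (hY : ∀ i, ¬ TR (col A i) (join Y (del A i)))
    (hR : dg R = ρ (dg Y)) (hC : dg C = ρ (dg A)) (hA' : ∀ i, dg (A' i) = ρ (dg (col A i))) :
    ∃ c : Code, ∀ i, Y i = true ↔ TR (A' i) (Ft c (join R C)) := by
  obtain ⟨B', hB'⟩ := dg_surj (ρ (dg (keep Y A)))
  have h1 : TR B' (join R C) := TR_image ρ (TR_keep Y A) hB' hR hC
  obtain ⟨c, hc⟩ := Red_of_TR h1
  refine ⟨c, fun i => ?_⟩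
  rw [hc.Ft_eq, TR_image1 ρ (hA' i) hB']
  constructor
  · intro hYi
    rw [← col_keep hYi]
    exact TR_col _ _
  · intro h
    by_contra hYi
    rw [Bool.not_eq_true] at hYi
    refine hY i (h.trans ?_)
    rw [keep_del hYi]
    exact TR_keep _ _

/-- measurability of the decoding functions -/
theorem measurable_decode (A' : ℕ → Om) (C : Om) (c : Code) :
    Measurable (fun R : Om => fun i : ℕ =>
      (by classical exact decide (TR (A' i) (Ft c (join R C))) : Bool)) := by
  classical
  refine measurable_pi_lambda _ fun i => ?_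
  have hm : Measurable (fun R : Om => Ft c (join R C)) :=
    (measurable_Ft c).comp (measurable_join.comp (measurable_id.prodMk measurable_const))
  have hs : MeasurableSet {R : Om | TR (A' i) (Ft c (join R C))} :=
    hm (measurableSet_TR (A' i))
  refine measurable_to_bool ?_
  convert hs using 1
  ext R
  simp

/-- Every representative of `π (dg R)` is a Borel function of `R` (countably many functions),
for comeager many `R`. -/
theorem borel_bound (π : SetDegree ≃o SetDegree) :
    ∃ G : Code → Om → Om, (∀ c, Measurable (G c)) ∧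
      ∀ᶠ R in residual Om, ∀ Y : Om, dg Y = π (dg R) → ∃ c, G c R = Y := by
  classical
  obtain ⟨A, hA⟩ := exists_indep
  choose A' hA' using fun i => dg_surj (π.symm (dg (col A i)))
  choose D hD using fun i => dg_surj (π.symm (dg (del A i)))
  obtain ⟨C, hC⟩ := dg_surj (π.symm (dg A))
  refine ⟨fun c R i => decide (TR (A' i) (Ft c (join R C))),
    fun c => measurable_decode A' C c, ?_⟩
  have h1 : ∀ i, ∀ᶠ R in residual Om, ¬ TR (A' i) (join (D i) R) := by
    intro i
    refine generic_not_TR ?_
    rw [TR_image1 π.symm (hA' i) (hD i)]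
    exact hA i
  have h2 : ∀ᶠ R in residual Om, ∀ i, ¬ TR (A' i) (join (D i) R) :=
    eventually_countable_forall.2 h1
  filter_upwards [h2] with R hR Y hY
  have hRY : dg R = π.symm (dg Y) := dg_symm hY
  have h3 : ∀ i, ¬ TR (col A i) (join Y (del A i)) := by
    intro i h
    have h4 : TR (A' i) (join R (D i)) := TR_image π.symm h (hA' i) hRY (hD i)
    exact hR i (h4.trans (TR_join (TR_right _ _) (TR_left _ _)))
  obtain ⟨c, hc⟩ := coding π.symm h3 hRY hC hA'
  refine ⟨c, ?_⟩
  funext i
  have := hc i
  by_cases hYi : Y i = true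
  · rw [hYi]; simpa using this.1 hYi
  · have h5 : ¬ TR (A' i) (Ft c (join R C)) := fun h => hYi (this.2 h)
    rw [Bool.not_eq_true] at hYi
    rw [hYi]; simpa using h5

/-- Conversely `R` is a Borel function of any representative of `π (dg R)`. -/
theorem borel_inv (π : SetDegree ≃o SetDegree) :
    ∃ H : Code → Om → Om, (∀ c, Measurable (H c)) ∧
      ∀ᶠ R in residual Om, ∀ Z : Om, dg Z = π (dg R) → ∃ c, H c Z = R := by
  classical
  obtain ⟨A, hA⟩ := exists_indep
  choose A' hA' using fun i => dg_surj (π (dg (col A i)))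
  obtain ⟨C, hC⟩ := dg_surj (π (dg A))
  refine ⟨fun c R i => decide (TR (A' i) (Ft c (join R C))),
    fun c => measurable_decode A' C c, ?_⟩
  have h2 : ∀ᶠ R in residual Om, ∀ i, ¬ TR (col A i) (join (del A i) R) :=
    eventually_countable_forall.2 fun i => generic_not_TR (hA i)
  filter_upwards [h2] with R hR Z hZ
  have h3 : ∀ i, ¬ TR (col A i) (join R (del A i)) := by
    intro i h
    exact hR i (h.trans (TR_join (TR_right _ _) (TR_left _ _)))
  obtain ⟨c, hc⟩ := coding π h3 hZ hC hA'
  refine ⟨c, ?_⟩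
  funext i
  have := hc i
  by_cases hYi : R i = true
  · rw [hYi]; simpa using this.1 hYi
  · have h5 : ¬ TR (A' i) (Ft c (join Z C)) := fun h => hYi (this.2 h)
    rw [Bool.not_eq_true] at hYi
    rw [hYi]; simpa using h5

end Crest.Agent.R292
end

-- ▼ part R292/Config
section

/-!
# R292: the configuration
-/

set_option autoImplicit false

namespace Crest.Agent.R292

open Encodable Topology Set Filter
open Nat.Partrec (Code)
open Crest.LogicCS.Degrees

/-- the affine chart of a cylinder -/
def aff (m : ℕ) (t : Om) (T : Om) : Om := add (tn m t) (shn m T)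

theorem aff_apply_add (m : ℕ) (t T : Om) (n : ℕ) : aff m t T (n + m) = T n := by
  simp [aff, add, tn, shn]

theorem aff_low (m : ℕ) (t T : Om) (n : ℕ) (hn : n < m) : aff m t T n = t n := by
  simp [aff, add, tn, shn, hn]

theorem continuous_aff (m : ℕ) (t : Om) : Continuous (aff m t) := by
  have : aff m t = (fun p : Om × Om => add p.1 p.2) ∘ (fun T => (tn m t, shn m T)) := rfl
  rw [this]
  exact continuous_add.comp (continuous_const.prodMk (continuous_shn m))

theorem aff_openEmbedding (m : ℕ) (t : Om) : IsOpenEmbedding (aff m t) := by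
  have hl : Function.LeftInverse (fun (a : Om) (n : ℕ) => a (n + m)) (aff m t) := by
    intro T; funext n; exact aff_apply_add m t T n
  have hcl : Continuous (fun (a : Om) (n : ℕ) => a (n + m)) :=
    continuous_pi fun n => continuous_apply (n + m)
  have hemb : IsEmbedding (aff m t) := hl.isEmbedding hcl (continuous_aff m t)
  refine ⟨hemb, ?_⟩
  have : range (aff m t) = ⋂ i ∈ Finset.range m, {x : Om | x i = t i} := by
    ext x
    simp only [mem_range, Finset.mem_range, mem_iInter]
    constructor
    · rintro ⟨T, rfl⟩ i hi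
      exact aff_low m t T i hi
    · intro h
      refine ⟨fun n => x (n + m), ?_⟩
      funext n
      by_cases hn : n < m
      · rw [aff_low _ _ _ _ hn]; exact (h n hn).symm
      · obtain ⟨k, rfl⟩ : ∃ k, n = k + m := ⟨n - m, by omega⟩
        rw [aff_apply_add]
  rw [this]
  refine isOpen_biInter_finset (fun i _ => ?_)
  have h : IsOpen ((fun x : Om => x i) ⁻¹' {t i}) :=
    (isOpen_discrete ({t i} : Set Bool)).preimage (continuous_apply i)
  exact h

theorem dg_aff (m : ℕ) (t T : Om) : dg (aff m t T) = dg T := by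
  refine dg_eq_of ?_ ?_
  · refine (TR_add _ _).trans (TR_join (TR_tn _ _ _) (TR_shn _ _))
  · have h1 : TR (add (tn m t) (aff m t T)) (aff m t T) :=
      (TR_add _ _).trans (TR_join (TR_tn _ _ _) (TR.refl _))
    have h2 : add (tn m t) (aff m t T) = shn m T := add_add_cancel _ _
    rw [h2] at h1
    exact (TR_of_shn m T).trans h1

/-- the Borel statement of a choice of indices -/
def Bst (X Xh : Om) (G H : Code → Om → Om) (i : (Fin 6 → Code) × (Fin 7 → Code)) :
    Set (Om × Om) :=
  {p | Rel X Xh (G (i.1 0)) (G (i.1 1)) (G (i.1 2)) (G (i.1 3)) (G (i.1 4)) i.2 p ∧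
    H (i.1 5) (G (i.1 1) p.2) = p.2}

theorem measurableSet_Bst (X Xh : Om) {G H : Code → Om → Om} (hG : ∀ c, Measurable (G c))
    (hH : ∀ c, Measurable (H c)) (i : (Fin 6 → Code) × (Fin 7 → Code)) :
    MeasurableSet (Bst X Xh G H i) := by
  have mf : Measurable (fun p : Om × Om => G (i.1 0) p.1) := (hG _).comp measurable_fst
  have mg : Measurable (fun p : Om × Om => G (i.1 1) p.2) := (hG _).comp measurable_snd
  have m1 : Measurable (fun p : Om × Om => G (i.1 2) (add p.1 p.2)) :=
    (hG _).comp continuous_add.measurable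
  have mt : Measurable (fun p : Om × Om => G (i.1 3) (add (sh p.1) p.2)) :=
    (hG _).comp (continuous_add.comp
      ((continuous_sh.comp continuous_fst).prodMk continuous_snd)).measurable
  have mX : Measurable (fun p : Om × Om => G (i.1 4) (add (cv X p.1) p.2)) :=
    (hG _).comp (continuous_add.comp
      (((continuous_cv X).comp continuous_fst).prodMk continuous_snd)).measurable
  have jn2 : ∀ {u v : Om × Om → Om}, Measurable u → Measurable v →
      Measurable (fun p => join (u p) (v p)) := fun hu hv =>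
    measurable_join.comp (hu.prodMk hv)
  have rd : ∀ (c : Code) {u v : Om × Om → Om}, Measurable u → Measurable v →
      MeasurableSet {p | Red c (u p) (v p)} := fun c _ _ hu hv =>
    (hu.prodMk hv) (measurableSet_Red c)
  have mc : Measurable (fun _ : Om × Om => Xh) := measurable_const
  refine MeasurableSet.inter (MeasurableSet.inter (rd _ (jn2 mf mg) m1)
    (MeasurableSet.inter (rd _ (jn2 m1 mf) mg) (MeasurableSet.inter (rd _ (jn2 m1 mg) mf)
    (MeasurableSet.inter (rd _ (jn2 mf mg) mt) (MeasurableSet.inter (rd _ (jn2 mt mg) mf)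
    (MeasurableSet.inter (rd _ (jn2 mc (jn2 mf mg)) mX)
    (rd _ (jn2 mc (jn2 mX mf)) mg))))))) ?_
  exact measurableSet_eq_fun ((hH _).comp mg) measurable_snd

theorem exists_config (π : SetDegree ≃o SetDegree) (X Xh : Om) (hX : dg Xh = π (dg X)) :
    ∃ (f g s1 st sX : Om → Om) (c : Fin 7 → Code) (Hf : Om → Om),
      Measurable g ∧ (∀ᶠ W in residual Om, Hf (g W) = W) ∧
      (∀ᶠ p in residual (Om × Om), Rel X Xh f g s1 st sX c p) ∧
      EN {T : Om | dg (f T) = π (dg T)} ∧ EN {W : Om | dg (g W) = π (dg W)} := by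
  choose rep hrep using fun R : Om => dg_surj (π (dg R))
  obtain ⟨G, hG, hGb⟩ := borel_bound π
  obtain ⟨H, hH, hHb⟩ := borel_inv π
  have hg1 : ∀ᶠ R in residual Om, ∃ c, G c R = rep R := by
    filter_upwards [hGb] with R hR using hR _ (hrep R)
  have hh1 : ∀ᶠ R in residual Om, ∃ c, H c (rep R) = R := by
    filter_upwards [hHb] with R hR using hR _ (hrep R)
  set Q : (Fin 6 → Code) × (Fin 7 → Code) → Set (Om × Om) := fun i =>
    {p | rep p.1 = G (i.1 0) p.1 ∧ rep p.2 = G (i.1 1) p.2 ∧ p ∈ Bst X Xh G H i} with hQ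
  have hcov : ∀ᶠ p in residual (Om × Om), ∃ i, p ∈ Q i := by
    filter_upwards [residual_fst hg1, residual_snd hg1, residual_shear hg1 id continuous_id,
      residual_shear hg1 sh continuous_sh, residual_shear hg1 (cv X) (continuous_cv X),
      residual_snd hh1] with p h0 h1 h2 h3 h4 h5
    obtain ⟨a0, h0⟩ := h0
    obtain ⟨a1, h1⟩ := h1
    obtain ⟨a2, h2⟩ := h2
    obtain ⟨a3, h3⟩ := h3
    obtain ⟨a4, h4⟩ := h4
    obtain ⟨a5, h5⟩ := h5
    obtain ⟨T, W⟩ := p
    simp only [id] at h0 h1 h2 h3 h4 h5
    obtain ⟨c0, hc0⟩ := Red_of_TR (TR_image π (TR_add T W) (hrep _) (hrep _) (hrep _))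
    have t1 : TR W (join (add T W) T) := by
      have := TR_add (add T W) T
      rwa [add_comm (add T W) T, add_add_cancel] at this
    obtain ⟨c1, hc1⟩ := Red_of_TR (TR_image π t1 (hrep _) (hrep _) (hrep _))
    have t2 : TR T (join (add T W) W) := by
      have := TR_add (add T W) W
      rwa [add_assoc, add_self, add_zero] at this
    obtain ⟨c2, hc2⟩ := Red_of_TR (TR_image π t2 (hrep _) (hrep _) (hrep _))
    have t3 : TR (add (sh T) W) (join T W) :=
      (TR_add _ _).trans (TR_join_mono (TR_sh T) (TR.refl _))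
    obtain ⟨c3, hc3⟩ := Red_of_TR (TR_image π t3 (hrep _) (hrep _) (hrep _))
    have t4 : TR T (join (add (sh T) W) W) := by
      have h := TR_add (add (sh T) W) W
      rw [add_assoc, add_self, add_zero] at h
      exact (TR_ls (sh T)).trans h
    obtain ⟨c4, hc4⟩ := Red_of_TR (TR_image π t4 (hrep _) (hrep _) (hrep _))
    have t5 : TR (add (cv X T) W) (join X (join T W)) := by
      refine (TR_add _ _).trans (TR_join ?_ ?_)
      · exact (TR_cv X T).trans (TR_join_mono (TR.refl _) (TR_left _ _))
      · exact (TR_right T W).trans (TR_right _ _)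
    obtain ⟨c5, hc5⟩ := Red_of_TR (TR_image3 π t5 (hrep _) hX (hrep _) (hrep _))
    have t6 : TR W (join X (join (add (cv X T) W) T)) := by
      have h := TR_add (cv X T) (add (cv X T) W)
      rw [add_add_cancel] at h
      refine h.trans (TR_join ?_ ?_)
      · exact (TR_cv X T).trans (TR_join_mono (TR.refl _) (TR_right _ _))
      · exact (TR_left _ T).trans (TR_right _ _)
    obtain ⟨c6, hc6⟩ := Red_of_TR (TR_image3 π t6 (hrep _) hX (hrep _) (hrep _))
    refine ⟨(![a0, a1, a2, a3, a4, a5], ![c0, c1, c2, c3, c4, c5, c6]), ?_, ?_, ?_, ?_⟩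
    · exact h0.symm
    · exact h1.symm
    · show Rel X Xh (G a0) (G a1) (G a2) (G a3) (G a4) ![c0, c1, c2, c3, c4, c5, c6] (T, W)
      unfold Rel
      simp only [h0, h1, h2, h3, h4]
      exact ⟨hc0, hc1, hc2, hc3, hc4, hc5, hc6⟩
    · show H a5 (G a1 W) = W
      rw [h1, h5]
  -- some choice of indices is nonmeagre
  obtain ⟨i, hi⟩ : ∃ i, ¬ IsMeagre (Q i) := by
    by_contra hno
    push Not at hno
    have hm : IsMeagre (⋃ i, Q i) := isMeagre_iUnion hno
    have hres : (⋃ i, Q i) ∈ residual (Om × Om) := by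
      filter_upwards [hcov] with p hp using mem_iUnion.2 hp
    have : (∅ : Set (Om × Om)) ∈ residual (Om × Om) := by
      have := inter_mem hres hm
      rwa [inter_compl_self] at this
    exact (dense_of_mem_residual this).nonempty.ne_empty rfl
  obtain ⟨U, hUo, hUne, hUQ⟩ := exists_open_EN hi
  obtain ⟨t0, w0, m, hcyl⟩ := exists_cylinder hUo hUne
  set Φ : Om × Om → Om × Om := Prod.map (aff m t0) (aff m w0) with hΦ
  have hΦe : IsOpenEmbedding Φ := (aff_openEmbedding m t0).prodMap (aff_openEmbedding m w0)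
  have hΦU : ∀ p, Φ p ∈ U := fun p => hcyl p.1 p.2
  have hBm : IsMeagre (U \ Bst X Xh G H i) :=
    meagre_diff_of_EN (measurableSet_Bst X Xh hG hH i).baireMeasurableSet hUo hUQ
      (fun p hp => hp.1.2.2)
  have hBres : ∀ᶠ p in residual (Om × Om), Φ p ∈ Bst X Xh G H i := by
    have := hBm.preimage_of_isOpenMap hΦe.continuous hΦe.isOpenMap
    filter_upwards [this] with p hp
    by_contra hcon
    exact hp ⟨hΦU p, hcon⟩
  -- rescaling
  have hrel : ∀ᶠ p in residual (Om × Om), Rel X Xh (fun T => G (i.1 0) (aff m t0 T))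
      (fun W => G (i.1 1) (aff m w0 W))
      (fun K => G (i.1 2) (add (add (tn m t0) (tn m w0)) (shn m K)))
      (fun K => G (i.1 3) (add (add (sh (tn m t0)) (tn m w0)) (shn m K)))
      (fun K => G (i.1 4) (add (add (cv X (tn m t0)) (tn m w0)) (shn m K))) i.2 p := by
    filter_upwards [hBres] with p hp
    obtain ⟨T, W⟩ := p
    have h := hp.1
    have e1 : add (aff m t0 T) (aff m w0 W) =
        add (add (tn m t0) (tn m w0)) (shn m (add T W)) := by
      rw [shn_add]; unfold aff
      funext n; simp only [add]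
      cases tn m t0 n <;> cases tn m w0 n <;> cases shn m T n <;> cases shn m W n <;> rfl
    have e2 : add (sh (aff m t0 T)) (aff m w0 W) =
        add (add (sh (tn m t0)) (tn m w0)) (shn m (add (sh T) W)) := by
      rw [shn_add]; unfold aff
      rw [sh_add, sh_shn]
      funext n; simp only [add]
      cases sh (tn m t0) n <;> cases tn m w0 n <;> cases shn m (sh T) n <;>
        cases shn m W n <;> rfl
    have e3 : add (cv X (aff m t0 T)) (aff m w0 W) =
        add (add (cv X (tn m t0)) (tn m w0)) (shn m (add (cv X T) W)) := by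
      rw [shn_add]; unfold aff
      rw [cv_add, cv_shn]
      funext n; simp only [add]
      cases cv X (tn m t0) n <;> cases tn m w0 n <;> cases shn m (cv X T) n <;>
        cases shn m W n <;> rfl
    simp only [hΦ, Prod.map, Rel, e1, e2, e3] at h
    exact h
  refine ⟨_, _, _, _, _, i.2, fun Z n => H (i.1 5) Z (n + m), ?_, ?_, hrel, ?_, ?_⟩
  · exact (hG _).comp (continuous_aff m w0).measurable
  · have h1 : {p : Om × Om | Φ p ∈ Bst X Xh G H i} ∈ residual (Om × Om) := hBres
    have h2 := kuratowski_ulam h1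
    obtain ⟨T, hT⟩ := (dense_of_mem_residual h2).nonempty
    filter_upwards [hT] with W hW
    have h3 : H (i.1 5) (G (i.1 1) (aff m w0 W)) = aff m w0 W := hW.2
    funext n
    show H (i.1 5) (G (i.1 1) (aff m w0 W)) (n + m) = W n
    rw [h3, aff_apply_add]
  · intro V hV hVne hmeag
    set V' : Set (Om × Om) := Φ '' (V ×ˢ univ) with hV'
    have hV'o : IsOpen V' := hΦe.isOpenMap _ (hV.prod isOpen_univ)
    have hV'ne : V'.Nonempty := by
      obtain ⟨T, hT⟩ := hVne
      exact ⟨Φ (T, T), ⟨(T, T), ⟨hT, mem_univ _⟩, rfl⟩⟩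
    have hV'U : V' ⊆ U := by
      rintro _ ⟨q, _, rfl⟩; exact hΦU q
    refine hUQ V' hV'o hV'U hV'ne ?_
    have h1 : IsMeagre ((fun p : Om × Om => p.1) ⁻¹'
        ({T : Om | dg (G (i.1 0) (aff m t0 T)) = π (dg T)} ∩ V)) :=
      hmeag.preimage_of_isOpenMap continuous_fst isOpenMap_fst
    refine (hΦe.isInducing.isMeagre_image h1).mono ?_
    rintro _ ⟨hq1, ⟨q, hq2, rfl⟩⟩
    refine ⟨q, ⟨?_, hq2.1⟩, rfl⟩
    show dg (G (i.1 0) (aff m t0 q.1)) = π (dg q.1)
    have h3 : rep (aff m t0 q.1) = G (i.1 0) (aff m t0 q.1) := hq1.1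
    rw [← h3, hrep, dg_aff]
  · intro V hV hVne hmeag
    set V' : Set (Om × Om) := Φ '' (univ ×ˢ V) with hV'
    have hV'o : IsOpen V' := hΦe.isOpenMap _ (isOpen_univ.prod hV)
    have hV'ne : V'.Nonempty := by
      obtain ⟨T, hT⟩ := hVne
      exact ⟨Φ (T, T), ⟨(T, T), ⟨mem_univ _, hT⟩, rfl⟩⟩
    have hV'U : V' ⊆ U := by
      rintro _ ⟨q, _, rfl⟩; exact hΦU q
    refine hUQ V' hV'o hV'U hV'ne ?_
    have h1 : IsMeagre ((fun p : Om × Om => p.2) ⁻¹'
        ({T : Om | dg (G (i.1 1) (aff m w0 T)) = π (dg T)} ∩ V)) :=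
      hmeag.preimage_of_isOpenMap continuous_snd isOpenMap_snd
    refine (hΦe.isInducing.isMeagre_image h1).mono ?_
    rintro _ ⟨hq1, ⟨q, hq2, rfl⟩⟩
    refine ⟨q, ⟨?_, hq2.2⟩, rfl⟩
    show dg (G (i.1 1) (aff m w0 q.2)) = π (dg q.2)
    have h3 : rep (aff m w0 q.2) = G (i.1 1) (aff m w0 q.2) := hq1.2.1
    rw [← h3, hrep, dg_aff]

end Crest.Agent.R292
end

-- ▼ part R292/Separation
section

/-!
# R292: separation lemma (compactness of `{δ | δ 0 = true}`)
-/

set_option autoImplicit false

namespace Crest.Agent.R292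

open Topology Set Filter

/-- translation by `δ` as a homeomorphism -/
def addHomeo (δ : Om) : Om ≃ₜ Om where
  toFun := fun W => add W δ
  invFun := fun W => add W δ
  left_inv := fun W => by
    show add (add W δ) δ = W
    rw [add_assoc, add_self, add_zero]
  right_inv := fun W => by
    show add (add W δ) δ = W
    rw [add_assoc, add_self, add_zero]
  continuous_toFun := by
    refine continuous_pi fun n => ?_
    show Continuous fun W : Om => xor (W n) (δ n)
    exact (continuous_of_discreteTopology (f := fun b : Bool => xor b (δ n))).comp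
      (continuous_apply n)
  continuous_invFun := by
    refine continuous_pi fun n => ?_
    show Continuous fun W : Om => xor (W n) (δ n)
    exact (continuous_of_discreteTopology (f := fun b : Bool => xor b (δ n))).comp
      (continuous_apply n)

theorem exists_sep (g Hf : Om → Om) (C : Set Om) (hC : C ∈ residual Om)
    (hcont : ∀ x ∈ C, ∀ n, ∃ M, ∀ y ∈ C, (∀ i < M, y i = x i) → g y n = g x n)
    (hinj : ∀ W ∈ C, Hf (g W) = W) (δ : Om) (hδ : δ 0 = true) :
    ∃ (W : Om) (p M : ℕ), ∀ y ∈ C, ∀ z ∈ C, (∀ i < M, y i = W i) →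
      (∀ i < M, z i = xor (W i) (δ i)) → g y p ≠ g z p := by
  have h1 : (addHomeo δ) ⁻¹' C ∈ residual Om := by
    have := (addHomeo δ).residual_map_eq
    have h2 : C ∈ (residual Om).map (addHomeo δ) := by rw [this]; exact hC
    exact h2
  have h3 : (C ∩ (addHomeo δ) ⁻¹' C) ∈ residual Om := inter_mem hC h1
  obtain ⟨W, hW1, hW2⟩ := (dense_of_mem_residual h3).nonempty
  have hW2' : add W δ ∈ C := hW2
  have hne : W ≠ add W δ := by
    intro h
    have := congrFun h 0
    simp [add, hδ] at this
  have hgne : g W ≠ g (add W δ) := by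
    intro h
    apply hne
    have e1 := hinj W hW1
    rw [h, hinj _ hW2'] at e1
    exact e1.symm
  obtain ⟨p, hp⟩ := Function.ne_iff.1 hgne
  obtain ⟨M1, hM1⟩ := hcont W hW1 p
  obtain ⟨M2, hM2⟩ := hcont _ hW2' p
  refine ⟨W, p, max M1 M2, fun y hy z hz h1 h2 => ?_⟩
  rw [hM1 y hy (fun i hi => h1 i (lt_of_lt_of_le hi (le_max_left _ _))),
    hM2 z hz (fun i hi => h2 i (lt_of_lt_of_le hi (le_max_right _ _)))]
  exact hp

/-- Separation: from continuity and injectivity of `g` on a comeager set, and compactness of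
`{δ | δ 0 = true}`. -/
theorem separation (g Hf : Om → Om) (C : Set Om) (hC : C ∈ residual Om)
    (hcont : ∀ x ∈ C, ∀ n, ∃ M, ∀ y ∈ C, (∀ i < M, y i = x i) → g y n = g x n)
    (hinj : ∀ W ∈ C, Hf (g W) = W) :
    ∃ (M S : ℕ) (V : ℕ → Om) (p : ℕ → ℕ), 0 < M ∧
      ∀ δ : Om, δ 0 = true → ∃ s < S, ∀ y ∈ C, ∀ z ∈ C, (∀ i < M, y i = V s i) →
        (∀ i < M, z i = xor (V s i) (δ i)) → g y (p s) ≠ g z (p s) := by
  classical
  choose! W p M h using fun δ : Om => exists_sep g Hf C hC hcont hinj δ
  set K : Set Om := {δ | δ 0 = true} with hK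
  have hKc : IsCompact K := by
    have : IsClosed K := by
      have : K = (fun δ : Om => δ 0) ⁻¹' {true} := by ext; simp [hK]
      rw [this]
      exact (isClosed_discrete _).preimage (continuous_apply 0)
    exact this.isCompact
  have hopen : ∀ δ ∈ K, {δ' : Om | ∀ i < M δ, δ' i = δ i} ∈ 𝓝 δ := by
    intro δ _
    have hfin : {δ' : Om | ∀ i < M δ, δ' i = δ i} =
        ⋂ i ∈ Finset.range (M δ), (fun x : Om => x i) ⁻¹' {δ i} := by
      ext x; simp
    have ho : IsOpen {δ' : Om | ∀ i < M δ, δ' i = δ i} := by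
      rw [hfin]
      exact isOpen_biInter_finset fun i _ =>
        (isOpen_discrete _).preimage (continuous_apply i)
    exact ho.mem_nhds (fun i _ => rfl)
  obtain ⟨t, ht⟩ := hKc.elim_nhds_subcover' (fun δ _ => {δ' : Om | ∀ i < M δ, δ' i = δ i})
    (fun δ hδ => hopen δ hδ)
  -- enumerate the finite set `t`
  obtain ⟨l, hl⟩ : ∃ l : List Om, ∀ δ : Om, (∃ x ∈ t, (x : Om) = δ) ↔ δ ∈ l :=
    ⟨(t.image Subtype.val).toList, fun δ => by simp⟩
  have hlK : ∀ δ ∈ l, δ 0 = true := by
    intro δ hδ
    obtain ⟨x, _, rfl⟩ := (hl δ).2 hδ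
    exact x.2
  set Mm : ℕ := (l.map M).foldr max 0 + 1 with hMm
  have hMle : ∀ δ ∈ l, M δ < Mm := by
    intro δ hδ
    have h0 : M δ ≤ (l.map M).foldr max 0 := List.le_max_of_le' 0 (List.mem_map_of_mem hδ) le_rfl
    omega
  refine ⟨Mm, l.length, fun s => W (l.getD s (cst false)), fun s => p (l.getD s (cst false)),
    by omega, fun δ hδ => ?_⟩
  have hδK : δ ∈ K := hδ
  have hmem := ht hδK
  simp only [mem_iUnion, mem_ofPred_eq] at hmem
  obtain ⟨x, hxt, hx⟩ := hmem
  have hxl : (x : Om) ∈ l := (hl _).1 ⟨x, hxt, rfl⟩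
  obtain ⟨s, hs, hsx⟩ := List.mem_iff_getElem.1 hxl
  have hget : l.getD s (cst false) = (x : Om) := by
    rw [List.getD_eq_getElem _ _ hs, hsx]
  refine ⟨s, hs, fun y hy z hz h1 h2 => ?_⟩
  simp only [hget] at h1 h2 ⊢
  refine h x x.2 y hy z hz (fun i hi => h1 i (hi.trans (hMle _ hxl))) (fun i hi => ?_)
  rw [h2 i (hi.trans (hMle _ hxl)), hx i hi]

end Crest.Agent.R292
end

-- ▼ part R292/Decode
section

/-!
# R292: decoding
-/

set_option autoImplicit false

namespace Crest.Agent.R292

open Encodable Topology Set Filter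
open Nat.Partrec (Code)

/-- cylinder -/
def cyl (M : ℕ) (a : Om) : Set Om := {x | ∀ i < M, x i = a i}

theorem isOpen_cyl (M : ℕ) (a : Om) : IsOpen (cyl M a) := by
  have : cyl M a = ⋂ i ∈ Finset.range M, {x : Om | x i = a i} := by
    ext x; simp [cyl]
  rw [this]
  refine isOpen_biInter_finset (fun i _ => ?_)
  have h : IsOpen ((fun x : Om => x i) ⁻¹' {a i}) :=
    (isOpen_discrete ({a i} : Set Bool)).preimage (continuous_apply i)
  exact h

theorem mem_cyl_self (M : ℕ) (a : Om) : a ∈ cyl M a := fun _ _ => rfl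

/-- finite functions of uniformly computed bits -/
theorem UR_fin {I : Type*} {b : I → Om} (n : ℕ) :
    ∀ (x : Fin n → I → Bool), (∀ r, UR b (fun i => cst (x r i))) →
      ∀ D : (Fin n → Bool) → Bool, UR b (fun i => cst (D (fun r => x r i))) := by
  induction n with
  | zero =>
    intro x _ D
    have : (fun i : I => cst (D (fun r => x r i))) = fun _ => cst (D Fin.elim0) := by
      funext i; congr 1; congr 1; funext r; exact r.elim0
    rw [this]; exact UR.const b _
  | succ n ih =>
    intro x hx D
    have h1 := ih (fun r => x r.succ) (fun r => hx r.succ) (fun y => D (Fin.cons true y))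
    have h0 := ih (fun r => x r.succ) (fun r => hx r.succ) (fun y => D (Fin.cons false y))
    have h := UR.cond (hx 0) h1 h0
    have e : (fun i : I => cst (D (fun r => x r i))) =
        fun i => if x 0 i = true then cst (D (Fin.cons true (fun r => x r.succ i)))
          else cst (D (Fin.cons false (fun r => x r.succ i))) := by
      funext i
      have e1 : (fun r => x r i) = Fin.cons (x 0 i) (fun r => x r.succ i) := by
        funext r; refine Fin.cases ?_ (fun r => ?_) r <;> simp
      cases hxi : x 0 i <;> simp [e1, hxi]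
    rw [e]; exact h

/-- The deterministic part of the decoding. -/
theorem decode_aux (X Xh : Om) (f g s1 st sX : Om → Om) (c : Fin 7 → Code)
    (C : Set Om) (M S : ℕ) (V : ℕ → Om) (p : ℕ → ℕ)
    (hsep : ∀ δ : Om, δ 0 = true → ∃ s < S, ∀ y ∈ C, ∀ z ∈ C, (∀ i < M, y i = V s i) →
        (∀ i < M, z i = xor (V s i) (δ i)) → g y (p s) ≠ g z (p s))
    (Nb : ℕ) (e : Fin S × (Fin M → Bool) ≃ Fin Nb)
    (Y γ : Om) (W : ℕ → Om)
    (hγ : ∀ i < M, γ i = decide (i = 0))
    (hW : ∀ (s : Fin S) (a : Fin M → Bool), ∀ i : Fin M,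
      W (1 + (e (s, a) : ℕ)) i = xor (V s i) (a i))
    (P1 : ∀ k j, Rel X Xh f g s1 st sX c (add Y (cv (ls^[k] X) γ), W j))
    (P2 : ∀ k j, Rel X Xh f g s1 st sX c (add Y (sc (X k) γ),
      add (W j) (sh (cv (ls^[k + 1] X) γ))))
    (P2' : ∀ k j, Rel X Xh f g s1 st sX c (Y, add (W j) (sh (cv (ls^[k + 1] X) γ))))
    (P3 : ∀ k j, Rel X Xh f g s1 st sX c (Y, add (W j) (cv (ls^[k] X) γ)))
    (P3' : ∀ k j, add (W j) (cv (ls^[k] X) γ) ∈ C)
    (P4 : ∀ j, Rel X Xh f g s1 st sX c (add Y γ, W j))
    (O : Om) (hOX : UR (fun _ : ℕ => O) (fun _ => Xh)) (hO0 : UR (fun _ : ℕ => O) (fun _ => f Y))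
    (hO1 : UR (fun _ : ℕ => O) (fun _ => f (add Y γ)))
    (hOW : ∀ j < Nb + 1, UR (fun _ : ℕ => O) (fun _ => g (W j))) :
    TR X O := by
  -- bits of the scalars
  have hκ : ∀ k, (ls^[k] X) 0 = X k := by
    have : ∀ k n, (ls^[k] X) n = X (n + k) := by
      intro k
      induction k with
      | zero => intro n; rfl
      | succ k ih =>
        intro n
        rw [Function.iterate_succ', Function.comp]
        show (ls^[k] X) (n + 1) = _
        rw [ih]; congr 1; ring
    intro k; rw [this]; simp
  set Z : ℕ → Om := fun k => f (add Y (cv (ls^[k] X) γ)) with hZ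
  set b : ℕ → Om := fun k => join O (Z k) with hb
  have bO : UR b (fun _ => O) := UR.left _ _
  have bZ : UR b Z := UR.right _ _
  have bX : UR b (fun _ => Xh) := bO.comp hOX
  have b0 : UR b (fun _ => f Y) := bO.comp hO0
  have b1 : UR b (fun _ => f (add Y γ)) := bO.comp hO1
  have bW : ∀ j < Nb + 1, UR b (fun _ => g (W j)) := fun j hj => bO.comp (hOW j hj)
  -- s1 ((Y + κ γ) + W j)
  have bA : ∀ j < Nb + 1, UR b (fun k => s1 (add (add Y (cv (ls^[k] X) γ)) (W j))) := by
    intro j hj
    exact (bZ.join (bW j hj)).comp (UR.of_Red (fun k => (P1 k j).1))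
  -- g (W j + κ γ)
  have bG : ∀ j < Nb + 1, UR b (fun k => g (add (W j) (cv (ls^[k] X) γ))) := by
    intro j hj
    refine ((bA j hj).join b0).comp ⟨c 1, fun k => ?_⟩
    have := (P3 k j).2.1
    have e1 : add (add Y (cv (ls^[k] X) γ)) (W j) = add Y (add (W j) (cv (ls^[k] X) γ)) := by
      rw [add_assoc, add_comm (W j)]
    beta_reduce
    rw [e1]; exact this
  -- the bit X k
  have hx : UR b (fun k => cst (X k)) := by
    set β : ℕ → Fin Nb → Bool := fun k j =>
      g (add (W (1 + (j : ℕ))) (cv (ls^[k] X) γ)) (p ((e.symm j).1 : ℕ)) with hβ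
    have hbβ : ∀ j, UR b (fun k => cst (β k j)) := by
      intro j
      exact (bG (1 + (j : ℕ)) (by omega)).comp (UR.bit _ _)
    have hdet : ∀ k k', β k = β k' → X k = X k' := by
      intro k k' hkk
      by_contra hne
      set δ : Om := add (ls^[k] X) (ls^[k'] X) with hδ
      have hδ0 : δ 0 = true := by
        show xor ((ls^[k] X) 0) ((ls^[k'] X) 0) = true
        rw [hκ, hκ]
        revert hne
        cases X k <;> cases X k' <;> simp
      obtain ⟨s, hs, hs2⟩ := hsep δ hδ0
      set a : Fin M → Bool := fun i => (ls^[k] X) i with ha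
      have hlow1 := cv_low (M := M) (γ := γ) hγ (ls^[k] X)
      have hlow2 := cv_low (M := M) (γ := γ) hγ (ls^[k'] X)
      have hWj := hW ⟨s, hs⟩ a
      have key := hs2 _ (P3' k (1 + (e (⟨s, hs⟩, a) : ℕ))) _ (P3' k' (1 + (e (⟨s, hs⟩, a) : ℕ)))
        (by
          intro i hi
          show xor (W _ i) (cv (ls^[k] X) γ i) = V s i
          rw [hlow1 i hi]
          have := hWj ⟨i, hi⟩
          simp only [] at this
          rw [this]
          simp [ha])
        (by
          intro i hi
          show xor (W _ i) (cv (ls^[k'] X) γ i) = xor (V s i) (δ i)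
          rw [hlow2 i hi]
          have := hWj ⟨i, hi⟩
          simp only [] at this
          rw [this]
          simp [ha, hδ, add])
      apply key
      have := congrFun hkk (e (⟨s, hs⟩, a))
      simpa [hβ] using this
    classical
    set D : (Fin Nb → Bool) → Bool := fun y => if h : ∃ k, β k = y then X h.choose else false
      with hD
    have hDβ : ∀ k, D (β k) = X k := by
      intro k
      have h : ∃ k', β k' = β k := ⟨k, rfl⟩
      simp only [hD, h, dif_pos]
      exact hdet _ _ h.choose_spec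
    have := UR_fin Nb (fun j k => β k j) hbβ D
    have e2 : (fun k => cst (D (fun j => β k j))) = fun k => cst (X k) := by
      funext k; rw [show (fun j => β k j) = β k from rfl, hDβ]
    rw [e2] at this; exact this
  -- f (Y + X(k) γ)
  have bY : UR b (fun k => f (add Y (sc (X k) γ))) := by
    have := UR.cond hx b1 b0
    have e3 : (fun k => f (add Y (sc (X k) γ))) =
        fun k => if X k = true then f (add Y γ) else f Y := by
      funext k
      cases hk : X k with
      | false =>
        have : sc false γ = cst false := by funext n; simp [sc, cst]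
        simp [this, add_zero]
      | true =>
        have : sc true γ = γ := by funext n; simp [sc]
        simp [this]
    rw [e3]; exact this
  -- g (W 0 + t κ' γ)
  have hstep : ∀ k, add (add Y (cv (ls^[k] X) γ)) (W 0) =
      add (add Y (sc (X k) γ)) (add (W 0) (sh (cv (ls^[k + 1] X) γ))) := by
    intro k
    rw [cv_eq (ls^[k] X) γ, hκ, ← Function.iterate_succ_apply' ls k X]
    funext n
    simp only [add]
    cases Y n <;> cases (sc (X k) γ n) <;> cases (W 0 n) <;>
      cases (sh (cv (ls^[k + 1] X) γ) n) <;> rfl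
  have bG2 : UR b (fun k => g (add (W 0) (sh (cv (ls^[k + 1] X) γ)))) := by
    refine ((bA 0 (by omega)).join bY).comp ⟨c 1, fun k => ?_⟩
    have := (P2 k 0).2.1
    beta_reduce
    rw [hstep k]; exact this
  have bS : UR b (fun k => st (add (sh Y) (add (W 0) (sh (cv (ls^[k + 1] X) γ))))) :=
    (b0.join bG2).comp ⟨c 3, fun k => (P2' k 0).2.2.2.1⟩
  have hs : UR b (fun k => Z (k + 1)) := by
    refine (bS.join (bW 0 (by omega))).comp ⟨c 4, fun k => ?_⟩
    have := (P1 (k + 1) 0).2.2.2.2.1
    have e4 : add (sh Y) (add (W 0) (sh (cv (ls^[k + 1] X) γ))) =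
        add (sh (add Y (cv (ls^[k + 1] X) γ))) (W 0) := by
      rw [sh_add]
      funext n
      simp only [add]
      cases (sh Y n) <;> cases (W 0 n) <;> cases (sh (cv (ls^[k + 1] X) γ) n) <;> rfl
    beta_reduce
    rw [e4]; exact this
  -- the start
  have hZ0 : UR (fun _ : ℕ => O) (fun _ => Z 0) := by
    have o0 := hO0
    have oW := hOW 0 (by omega)
    have q1 : UR (fun _ : ℕ => O) (fun _ => sX (add (cv X (add Y γ)) (W 0))) :=
      (hOX.join (hO1.join oW)).comp ⟨c 5, fun _ => (P4 0).2.2.2.2.2.1⟩
    have q2 : UR (fun _ : ℕ => O) (fun _ => g (add (W 0) (cv X γ))) := by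
      refine (hOX.join (q1.join o0)).comp ⟨c 6, fun _ => ?_⟩
      have := (P3 0 0).2.2.2.2.2.2
      have e5 : add (cv X (add Y γ)) (W 0) = add (cv X Y) (add (W 0) (cv X γ)) := by
        rw [cv_add, add_assoc, add_comm (cv X γ)]
      beta_reduce
      rw [e5]; exact this
    have q3 : UR (fun _ : ℕ => O) (fun _ => s1 (add Y (add (W 0) (cv X γ)))) :=
      (o0.join q2).comp ⟨c 0, fun _ => (P3 0 0).1⟩
    refine (q3.join oW).comp ⟨c 2, fun _ => ?_⟩
    have := (P1 0 0).2.2.1
    have e6 : add Y (add (W 0) (cv X γ)) = add (add Y (cv X γ)) (W 0) := by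
      rw [add_assoc, add_comm (W 0)]
    beta_reduce
    rw [e6]; exact this
  obtain ⟨cz, hcz⟩ := hZ0
  obtain ⟨cf, hcf⟩ := Red_iter hs hx
  have t1 : TR (Z 0) O := TR_of_Red (hcz 0)
  exact (TR_of_Red hcf).trans (TR_join (TR.refl _) t1)

/-- The decoding theorem. -/
theorem decode (X Xh : Om) (f g s1 st sX Hf : Om → Om) (c : Fin 7 → Code) (hg : Measurable g)
    (hinj : ∀ᶠ W in residual Om, Hf (g W) = W)
    (hrel : ∀ᶠ p in residual (Om × Om), Rel X Xh f g s1 st sX c p) :
    ∃ (N : ℕ) (U : ℕ → Set Om), (∀ i, IsOpen (U i) ∧ (U i).Nonempty) ∧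
      ∀ᶠ w in residual (ℕ → Om), (∀ i < N + 2, w i ∈ U i) →
        TR X (join Xh (jn (N + 2) (fun i => if i < 2 then f (w i) else g (w i)))) := by
  obtain ⟨C0, hC0, hcont⟩ := measurable_cont g hg
  set C : Set Om := C0 ∩ {W | Hf (g W) = W} with hCdef
  have hC : C ∈ residual Om := inter_mem hC0 hinj
  obtain ⟨M, S, V, p, hM, hsep⟩ := separation g Hf C hC
    (fun x hx n => by
      obtain ⟨M, hM⟩ := hcont x hx.1 n
      exact ⟨M, fun y hy => hM y hy.1⟩)
    (fun W hW => hW.2)
  set Nb := Fintype.card (Fin S × (Fin M → Bool)) with hNb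
  let e : Fin S × (Fin M → Bool) ≃ Fin Nb := Fintype.equivFin _
  let a : ℕ → Om := fun i =>
    if i = 0 then cst false
    else if i = 1 then (fun n => decide (n = 0))
    else if h : 3 ≤ i ∧ i - 3 < Nb then
      (fun n => xor (V (e.symm ⟨i - 3, h.2⟩).1 n)
        (if hn : n < M then (e.symm ⟨i - 3, h.2⟩).2 ⟨n, hn⟩ else false))
    else cst false
  refine ⟨Nb + 1, fun i => cyl M (a i), fun i => ⟨isOpen_cyl _ _, ⟨a i, mem_cyl_self _ _⟩⟩, ?_⟩
  refine residual_coord ?_
  -- genericity
  have hrel' : ∀ᶠ q in residual (Om × Om), Rel X Xh f g s1 st sX c q ∧ q.2 ∈ C :=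
    hrel.and (residual_snd hC)
  have pull : ∀ (c1 c2 : Om → Om), Continuous c1 → Continuous c2 → ∀ᶠ v in residual (ℕ → Om),
      ∀ j, Rel X Xh f g s1 st sX c (add (v 0) (c1 (v 1)), add (v (j + 2)) (c2 (v 1))) ∧
        add (v (j + 2)) (c2 (v 1)) ∈ C := by
    intro c1 c2 h1 h2
    rw [eventually_countable_forall]
    intro j
    obtain ⟨hc, ho⟩ := open_pair c1 c2 h1 h2 (j + 2) (by omega)
    exact (tendsto_residual_of_isOpenMap hc ho).eventually hrel'
  have h1 : ∀ᶠ v in residual (ℕ → Om), ∀ k j,
      Rel X Xh f g s1 st sX c (add (v 0) (cv (ls^[k] X) (v 1)), add (v (j + 2)) (cst false)) := by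
    rw [eventually_countable_forall]
    intro k
    filter_upwards [pull (cv (ls^[k] X)) (fun _ => cst false) (continuous_cv _)
      continuous_const] with v hv j using (hv j).1
  have h2 : ∀ᶠ v in residual (ℕ → Om), ∀ k j,
      Rel X Xh f g s1 st sX c (add (v 0) (sc (X k) (v 1)),
        add (v (j + 2)) (sh (cv (ls^[k + 1] X) (v 1)))) := by
    rw [eventually_countable_forall]
    intro k
    filter_upwards [pull (sc (X k)) (fun x => sh (cv (ls^[k + 1] X) x)) (continuous_sc _)
      (continuous_sh.comp (continuous_cv _))] with v hv j using (hv j).1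
  have h2' : ∀ᶠ v in residual (ℕ → Om), ∀ k j,
      Rel X Xh f g s1 st sX c (add (v 0) (cst false),
        add (v (j + 2)) (sh (cv (ls^[k + 1] X) (v 1)))) := by
    rw [eventually_countable_forall]
    intro k
    filter_upwards [pull (fun _ => cst false) (fun x => sh (cv (ls^[k + 1] X) x))
      continuous_const (continuous_sh.comp (continuous_cv _))] with v hv j using (hv j).1
  have h3 : ∀ᶠ v in residual (ℕ → Om), ∀ k j,
      Rel X Xh f g s1 st sX c (add (v 0) (cst false),
        add (v (j + 2)) (cv (ls^[k] X) (v 1))) ∧ add (v (j + 2)) (cv (ls^[k] X) (v 1)) ∈ C := by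
    rw [eventually_countable_forall]
    intro k
    exact pull (fun _ => cst false) (cv (ls^[k] X)) continuous_const (continuous_cv _)
  have h4 : ∀ᶠ v in residual (ℕ → Om), ∀ j,
      Rel X Xh f g s1 st sX c (add (v 0) (v 1), add (v (j + 2)) (cst false)) := by
    filter_upwards [pull id (fun _ => cst false) continuous_id continuous_const] with v hv j
      using (hv j).1
  filter_upwards [h1, h2, h2', h3, h4] with v g1 g2 g2' g3 g4 hU
  simp only [add_zero] at g1 g2' g3 g4
  -- abbreviations
  have hw0 := hU 0 (by omega)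
  have hw1 := hU 1 (by omega)
  simp only [show ((0 : ℕ) = 1) = False by simp, if_false, if_true, cyl, mem_ofPred_eq, a] at hw0 hw1
  refine decode_aux X Xh f g s1 st sX c C M S V p hsep Nb e (v 0) (v 1) (fun j => v (j + 2))
    ?_ ?_ g1 g2 g2' (fun k j => (g3 k j).1) (fun k j => (g3 k j).2) g4 _ ?_ ?_ ?_ ?_
  · intro i hi
    have e0 := hw0 i hi
    have e1 := hw1 i hi
    simp only [add, one_ne_zero, if_false] at e1
    rw [e0] at e1
    simpa [cst] using e1
  · intro s aa i
    have hlt : (e (s, aa) : ℕ) < Nb := (e (s, aa)).2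
    have hh := hU (1 + (e (s, aa) : ℕ) + 2) (by omega)
    have n1 : ¬ (1 + (e (s, aa) : ℕ) + 2 = 1) := by omega
    have n0 : ¬ (1 + (e (s, aa) : ℕ) + 2 = 0) := by omega
    have n3 : 3 ≤ 1 + (e (s, aa) : ℕ) + 2 ∧ 1 + (e (s, aa) : ℕ) + 2 - 3 < Nb := by omega
    have n4 : 1 + (e (s, aa) : ℕ) + 2 - 3 = (e (s, aa) : ℕ) := by omega
    simp only [n1, if_false, cyl, mem_ofPred_eq, a, n0, dif_pos n3] at hh
    have := hh i i.2
    rw [this]
    have e7 : (⟨1 + (e (s, aa) : ℕ) + 2 - 3, n3.2⟩ : Fin Nb) = e (s, aa) := by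
      ext; simp [n4]
    rw [e7]
    simp
  · exact UR.left (fun _ : ℕ => Xh) _
  · refine (UR.right _ _).comp ?_
    have := UR_jn (N := Nb + 1 + 2) (i := 0) (I := ℕ) (B := fun i => if i < 2 then
      f (if i = 1 then add (v 0) (v 1) else v i) else
      g (if i = 1 then add (v 0) (v 1) else v i)) (by omega)
    simpa using this
  · refine (UR.right _ _).comp ?_
    have := UR_jn (N := Nb + 1 + 2) (i := 1) (I := ℕ) (B := fun i => if i < 2 then
      f (if i = 1 then add (v 0) (v 1) else v i) else
      g (if i = 1 then add (v 0) (v 1) else v i)) (by omega)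
    simpa using this
  · intro j hj
    refine (UR.right _ _).comp ?_
    have := UR_jn (N := Nb + 1 + 2) (i := j + 2) (I := ℕ) (B := fun i => if i < 2 then
      f (if i = 1 then add (v 0) (v 1) else v i) else
      g (if i = 1 then add (v 0) (v 1) else v i)) (by omega)
    simpa using this

end Crest.Agent.R292
end

-- ▼ part R292/Final

/-!
# R292: rigidity of the Turing degrees
-/

set_option autoImplicit false

namespace Crest.Agent.R292

open Encodable Topology Set Filter
open Nat.Partrec (Code)
open Crest.LogicCS.Degrees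

/-- Every automorphism of the degrees is increasing. -/
theorem symm_le (π : SetDegree ≃o SetDegree) (x : SetDegree) : π.symm x ≤ x := by
  obtain ⟨X, hX⟩ := dg_surj x
  obtain ⟨Xh, hXh⟩ := dg_surj (π x)
  obtain ⟨Q, hQ⟩ := dg_surj (π.symm x)
  rw [← hX] at hXh hQ ⊢
  by_contra hcon
  rw [← hQ, dg_le_iff] at hcon
  obtain ⟨f, g, s1, st, sX, c, Hf, hg, hinj, hrel, hENf, hENg⟩ := exists_config π X Xh hXh
  obtain ⟨N, U, hU, hdec⟩ := decode X Xh f g s1 st sX Hf c hg hinj hrel
  have hgen : ∀ᶠ w in residual (ℕ → Om), ¬ TR Q (join X (flat w)) :=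
    residual_flat (generic_not_TR hcon)
  obtain ⟨w, ⟨hw1, hw2⟩, hw3⟩ := exists_mem_of_EN
    (fun i => if i < 2 then {T : Om | dg (f T) = π (dg T)} else {W : Om | dg (g W) = π (dg W)})
    (fun i => by by_cases hi : i < 2 <;> simp [hi, hENf, hENg]) U hU _ (hdec.and hgen) (N + 2)
  obtain ⟨P, hP⟩ := dg_surj (π (dg (flat w)))
  have hB : ∀ i < N + 2, TR (if i < 2 then f (w i) else g (w i)) P := by
    intro i hi
    have h1 : dg (if i < 2 then f (w i) else g (w i)) = π (dg (w i)) := by
      have := (hw3 i hi).1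
      by_cases h : i < 2
      · simpa [h] using this
      · simpa [h] using this
    refine (TR_image1 π h1 hP).2 ?_
    have := TR_col (flat w) i
    rwa [col_flat] at this
  have hJ := TR_jn hB
  have h2 : TR X (join Xh P) :=
    (hw1 (fun i hi => (hw3 i hi).2)).trans (TR_join_mono (TR.refl _) hJ)
  exact hw2 (TR_image π.symm h2 hQ (dg_symm hXh) (dg_symm hP))

theorem rigid (π : SetDegree ≃o SetDegree) : π = OrderIso.refl SetDegree := by
  ext x
  apply congrArg
  refine le_antisymm ?_ ?_
  · have := symm_le π.symm x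
    simpa using this
  · have := symm_le π x
    have h2 := (π.le_iff_le).2 this
    simpa using h2

end Crest.Agent.R292
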